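import Crest.Agent.NAI.Glue

/-! The CAR algebra acting on `ℓ²(ℕ)`. -/

set_option autoImplicit false
open Filter Topology
open scoped InnerProductSpace ComplexOrder

namespace Crest.Agent.NAI

/-- The star homomorphism attached to a Cuntz family. -/
noncomputable def cuntzHom {B : Type} [CStarAlgebra B] {n : Type} [Fintype n] [DecidableEq n]
    (s : n → B) (h1 : ∀ i j, star (s i) * s j = if i = j then 1 else 0)
    (h2 : ∑ i, s i * star (s i) = 1) : Matrix n n ℂ →⋆ₐ[ℂ] B :=
  have h0 : ∑ i, ∑ j, (1 : Matrix n n ℂ) i j • (s i * star (s j)) = 1 := by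
    simp [Matrix.one_apply, h2]
  { toFun := fun M => ∑ i, ∑ j, M i j • (s i * star (s j))
    map_one' := h0
    map_mul' := fun M N => by
      have : ∀ i j k l, s i * star (s j) * (s k * star (s l)) =
          if j = k then s i * star (s l) else 0 := fun i j k l => by
        rw [mul_assoc, ← mul_assoc (star (s j)), h1]; split_ifs <;> simp
      simp only [Matrix.mul_apply, Finset.sum_smul, Finset.sum_mul, Finset.mul_sum, smul_mul_assoc,
        mul_smul_comm, this, smul_ite, smul_zero, Finset.sum_ite_eq', Finset.mem_univ, if_true,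
        ]
      rw [Finset.sum_comm]
      conv_rhs => rw [Finset.sum_comm]
      refine Finset.sum_congr rfl fun l _ => ?_
      rw [Finset.sum_comm]
      refine Finset.sum_congr rfl fun k _ => ?_
      rw [Finset.smul_sum]
      refine Finset.sum_congr rfl fun j _ => ?_
      rw [smul_smul, mul_comm]
    map_zero' := by simp
    map_add' := fun M N => by simp [add_smul, Finset.sum_add_distrib]
    commutes' := fun c => by
      rw [Algebra.algebraMap_eq_smul_one, Algebra.algebraMap_eq_smul_one, ← h0]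
      simp [Finset.smul_sum, mul_smul]
    map_star' := fun M => by
      rw [Finset.sum_comm]
      simp [star_sum, star_smul] }

lemma cuntzHom_single {B : Type} [CStarAlgebra B] {n : Type} [Fintype n] [DecidableEq n]
    (s : n → B) (h1 : ∀ i j, star (s i) * s j = if i = j then 1 else 0)
    (h2 : ∑ i, s i * star (s i) = 1) (i j : n) :
    cuntzHom s h1 h2 (Matrix.single i j 1) = s i * star (s j) := by
  change ∑ k, ∑ l, Matrix.single i j (1 : ℂ) k l • (s k * star (s l)) = _
  simp [Matrix.single_apply, ite_and]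

theorem exists_sys : ∃ (A : Type) (_ : CStarAlgebra A) (S : Sys A) (R : Rep A) (x : R.K),
    ‖x‖ = 1 ∧ (∀ n, R.π (S.P n) x = x) ∧ Total fun a => R.π a x := by
  let H := lp (fun _ : ℕ => ℂ) 2
  let b : HilbertBasis ℕ ℂ H := default
  have hb : Total b := fun z hz => b.repr.injective (by
    ext i; rw [b.repr_apply_apply, hz]; simp)
  have hbb : ∀ i j, ⟪b i, b j⟫_ℂ = if i = j then 1 else 0 := orthonormal_iff_ite.1 b.orthonormal
  choose W hW using fun (m i : ℕ) => exists_isometry (y := fun n => b (2 ^ m * n + i)) hb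
    fun k l => by simp [hbb]
  let s : ℕ → ℕ → H →L[ℂ] H := fun m i => (W m i).toContinuousLinearMap
  have hs : ∀ m i n, s m i (b n) = b (2 ^ m * n + i) := hW
  have h1 : ∀ m i j, i < 2 ^ m → j < 2 ^ m → star (s m i) * s m j = if i = j then 1 else 0 :=
    fun m i j hi hj => hb.ext fun k => sub_eq_zero.1 (hb _ fun l => by
      rw [inner_sub_right, mul_apply_eq_comp, ContinuousLinearMap.star_eq_adjoint,
        ContinuousLinearMap.adjoint_inner_right, hs, hs, hbb, sub_eq_zero]
      split_ifs with h h' h'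
      · subst h'; rw [one_apply_eq_self, hbb, if_pos (by simpa using h)]
      · exfalso; apply h'
        have := congrArg (· % 2 ^ m) h
        simpa [Nat.mul_add_mod, Nat.mod_eq_of_lt hi, Nat.mod_eq_of_lt hj] using this
      · subst h'; rw [one_apply_eq_self, hbb, if_neg (by simpa using h)]
      · simp)
  have h1' : ∀ m (i j : Fin (2 ^ m)), star (s m i) * s m j = if i = j then 1 else 0 :=
    fun m i j => by simp [h1 m i j i.2 j.2, Fin.ext_iff]
  have h2 : ∀ m, ∑ i : Fin (2 ^ m), s m i * star (s m i) = 1 := fun m => hb.ext fun n => by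
    have hr : n % 2 ^ m < 2 ^ m := Nat.mod_lt _ (by positivity)
    obtain ⟨r, hr⟩ : ∃ r : Fin (2 ^ m), b n = s m r (b (n / 2 ^ m)) :=
      ⟨⟨_, hr⟩, by rw [hs, Nat.div_add_mod]⟩
    rw [hr]
    change ((∑ i : Fin (2 ^ m), s m i * star (s m i)) * s m r) _ = _
    simp only [Finset.sum_mul, mul_assoc, h1', mul_ite, mul_one, mul_zero, Finset.sum_ite_eq',
      Finset.mem_univ, if_true, one_apply_eq_self]
  have h3 : ∀ m i c, s m i * s 1 c = s (m + 1) (i + 2 ^ m * c) := fun m i c => hb.ext fun n => by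
    rw [mul_apply_eq_comp, hs, hs, hs]; congr 1; ring
  let ρ := fun m => cuntzHom (fun i : Fin (2 ^ m) => s m i) (h1' m) (h2 m)
  have hρ : ∀ m i j, ρ m (Matrix.single i j 1) = s m i * star (s m j) := fun m i j =>
    cuntzHom_single _ _ _ i j
  have mono : ∀ m, (ρ m).range ≤ (ρ (m + 1)).range := by
    rintro m _ ⟨M, rfl⟩
    change ∑ i, ∑ j, M i j • (s m i * star (s m j)) ∈ _
    refine sum_mem fun i _ => sum_mem fun j _ => SMulMemClass.smul_mem _ ?_
    have hlt : ∀ (i : Fin (2 ^ m)) (c : Fin (2 ^ 1)), (i : ℕ) + 2 ^ m * (c : ℕ) < 2 ^ (m + 1) :=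
        fun i c => by
      have h := c.2
      have := Nat.mul_le_mul_left (2 ^ m) (show (c : ℕ) ≤ 1 by omega)
      have := i.2
      omega
    have : s m i * star (s m j) = ∑ c : Fin (2 ^ 1),
        ρ (m + 1) (Matrix.single ⟨_, hlt i c⟩ ⟨_, hlt j c⟩ 1) := by
      simp only [hρ, ← h3]
      conv_lhs => rw [← mul_one (s m i), ← h2 1]
      simp only [Finset.mul_sum, Finset.sum_mul, mul_assoc]
      exact Finset.sum_congr rfl fun c _ => by rw [star_mul]
    rw [this]
    exact sum_mem fun c _ => ⟨_, rfl⟩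
  have hdir : Directed (· ≤ ·) fun m => (ρ m).range := (monotone_nat_of_le_succ mono).directed_le
  let D : StarSubalgebra ℂ (H →L[ℂ] H) := ⨆ m, (ρ m).range
  have hD : (D : Set (H →L[ℂ] H)) = ⋃ m, (ρ m).range := StarSubalgebra.coe_iSup_of_directed hdir
  let A := D.topologicalClosure
  have hA : IsClosed (A : Set (H →L[ℂ] H)) := StarSubalgebra.isClosed_topologicalClosure _
  have hm : ∀ m M, ρ m M ∈ A := fun m M =>
    StarSubalgebra.le_topologicalClosure _ (le_iSup (fun m => (ρ m).range) m ⟨M, rfl⟩)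
  have h0 : ∀ m, s m 0 (b 0) = b 0 := fun m => by simp [hs]
  have h0' : ∀ m, star (s m 0) (b 0) = b 0 := fun m => by
    conv_lhs => rw [← h0 m, ← mul_apply_eq_comp, h1 m 0 0 (by positivity) (by positivity)]
    simp
  refine ⟨A, inferInstance, ⟨fun m => (ρ m).codRestrict A (hm m), fun m M => ?_, ?_,
    fun m => Subtype.ext ?_⟩, ⟨H, A.subtype⟩, b 0, b.orthonormal.1 0, fun n => ?_,
    fun z hz => hb z fun n => ?_⟩
  · obtain ⟨N, hN⟩ := mono m ⟨M, rfl⟩
    exact ⟨N, Subtype.ext hN⟩
  · rw [Subtype.dense_iff]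
    refine closure_mono fun x hx => ?_
    obtain ⟨m, M, rfl⟩ := Set.mem_iUnion.1 (hD ▸ hx)
    exact ⟨⟨_, hm m M⟩, Set.mem_iUnion.2 ⟨m, M, rfl⟩, rfl⟩
  · change ρ m _ * ρ (m + 1) _ = ρ (m + 1) _
    have := h3 m 0 0
    simp only [mul_zero, add_zero] at this
    rw [hρ, hρ]
    simp only [Fin.val_zero]
    rw [← this, mul_assoc, ← mul_assoc (star (s m 0)), ← mul_assoc (star (s m 0)),
      h1 m 0 0 (by positivity) (by positivity), if_pos rfl, one_mul, ← mul_assoc]
  · change ρ n (Matrix.single 0 0 1) (b 0) = b 0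
    rw [hρ, mul_apply_eq_comp, Fin.val_zero, h0', h0]
  · have := hz ⟨_, hm n (Matrix.single ⟨n, Nat.lt_two_pow_self⟩ 0 1)⟩
    change ⟪ρ n _ (b 0), z⟫_ℂ = 0 at this
    rwa [hρ, mul_apply_eq_comp, Fin.val_zero, h0', hs, mul_zero, zero_add] at this

end Crest.Agent.NAI
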