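import Crest.Agent.NAI.Hilb

/-! States: GNS, ultralimits, states vanishing on an ideal. -/

set_option autoImplicit false
open Filter Topology
open scoped InnerProductSpace ComplexOrder

namespace Crest.Agent.NAI

variable {B : Type} [CStarAlgebra B]

lemma norm_one_le' : ‖(1 : B)‖ ≤ 1 := (IsStarProjection.one B).norm_le

/-- A state. -/
def IsSt (ω : B →ₗ[ℂ] ℂ) : Prop := ω 1 = 1 ∧ ∀ b, 0 ≤ ω (star b * b)

/-- A bundled unital representation on a Hilbert space of the lowest universe. -/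
structure Rep (A : Type) [CStarAlgebra A] : Type 1 where
  K : Type
  [i1 : NormedAddCommGroup K]
  [i2 : InnerProductSpace ℂ K]
  [i3 : CompleteSpace K]
  π : A →⋆ₐ[ℂ] (K →L[ℂ] K)

instance (R : Rep B) : NormedAddCommGroup R.K := R.i1
instance (R : Rep B) : InnerProductSpace ℂ R.K := R.i2
instance (R : Rep B) : CompleteSpace R.K := R.i3

lemma IsSt.gns {ω : B →ₗ[ℂ] ℂ} (h : IsSt ω) :
    ∃ (R : Rep B) (z : R.K), ‖z‖ = 1 ∧ (∀ b, ω b = ⟪z, R.π b z⟫_ℂ) ∧ Total fun b => R.π b z := by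
  let _ := CStarAlgebra.spectralOrder B
  have := CStarAlgebra.spectralOrderedRing B
  let f : B →ₚ[ℂ] ℂ := PositiveLinearMap.mk₀ ω fun x hx => by
    obtain ⟨b, rfl⟩ := CStarAlgebra.nonneg_iff_eq_star_mul_self.1 hx
    exact h.2 b
  have hf : ∀ b, f b = ω b := fun b => rfl
  let z : f.GNS := (f.toPreGNS 1 : f.PreGNS)
  have hz : ∀ b, f.gnsStarAlgHom b z = (f.toPreGNS b : f.PreGNS) := fun b => by
    simp [z, PositiveLinearMap.leftMulMapPreGNS_apply]
  refine ⟨⟨f.GNS, f.gnsStarAlgHom⟩, z, ?_, fun b => ?_, fun w hw => ?_⟩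
  · change ‖z‖ = 1
    simp [z, PositiveLinearMap.preGNS_norm_def, hf, h.1]
  · change _ = ⟪z, f.gnsStarAlgHom b z⟫_ℂ
    rw [hz]; simp [z, PositiveLinearMap.preGNS_inner_def, hf]
  · change f.GNS at w
    have : ∀ u : f.GNS, ⟪u, w⟫_ℂ = 0 := fun u => by
      induction u using UniformSpace.Completion.induction_on with
      | hp => exact isClosed_eq (by fun_prop) continuous_const
      | ih a =>
        have := hw (f.ofPreGNS a)
        change ⟪f.gnsStarAlgHom _ z, w⟫_ℂ = 0 at this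
        rwa [hz] at this
    exact inner_self_eq_zero.1 (this w)

lemma IsSt.norm_le {ω : B →ₗ[ℂ] ℂ} (h : IsSt ω) (b : B) : ‖ω b‖ ≤ ‖b‖ := by
  obtain ⟨R, z, h1, h2, -⟩ := h.gns
  rw [h2]
  refine (norm_inner_le_norm _ _).trans ?_
  simpa [h1] using norm_rep_le R.π b z

lemma IsSt.continuous {ω : B →ₗ[ℂ] ℂ} (h : IsSt ω) : Continuous ω :=
  (AddMonoidHomClass.lipschitz_of_bound ω 1 fun a => by simpa using h.norm_le a).continuous

lemma IsSt.map_star {ω : B →ₗ[ℂ] ℂ} (h : IsSt ω) (b : B) : ω (star b) = star (ω b) := by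
  obtain ⟨R, z, -, h2, -⟩ := h.gns
  rw [h2, h2, inner_rep_right, star_star, ← inner_conj_symm]; rfl

/-- Cauchy–Schwarz in the form used below. -/
lemma IsSt.norm_mul_le {ω : B →ₗ[ℂ] ℂ} (h : IsSt ω) (a b : B) :
    ‖ω (a * b)‖ ≤ ‖a‖ * √(ω (star b * b)).re := by
  obtain ⟨R, z, h1, h2, -⟩ := h.gns
  rw [h2, h2, ← norm_rep_sq, Real.sqrt_sq (norm_nonneg _), ← rep_mul]
  refine (norm_inner_le_norm _ _).trans ?_
  simpa [h1] using norm_rep_le R.π a (R.π b z)

lemma IsSt.norm_mul_le' {ω : B →ₗ[ℂ] ℂ} (h : IsSt ω) (a b : B) :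
    ‖ω (a * b)‖ ≤ ‖b‖ * √(ω (a * star a)).re := by
  have := h.norm_mul_le (star b) (star a)
  rwa [← star_mul, h.map_star, norm_star, norm_star, star_star] at this

lemma IsSt.norm_conj_le {ω : B →ₗ[ℂ] ℂ} (h : IsSt ω) (a b : B) :
    ‖ω (star b * a * b)‖ ≤ ‖a‖ * (ω (star b * b)).re := by
  obtain ⟨R, z, h1, h2, -⟩ := h.gns
  rw [h2, h2, ← norm_rep_sq, mul_assoc, ← rep_mul, ← rep_mul, ← inner_rep_left]
  refine (norm_inner_le_norm _ _).trans ?_
  have := norm_rep_le R.π a (R.π b z)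
  have h0 := norm_nonneg (R.π b z)
  nlinarith

lemma isSt_vec {K : Type*} [NormedAddCommGroup K] [InnerProductSpace ℂ K] [CompleteSpace K]
    (π : B →⋆ₐ[ℂ] (K →L[ℂ] K)) (b : B) (z : K) : 0 ≤ ⟪z, π (star b * b) z⟫_ℂ := by
  rw [← rep_mul, ← inner_rep_left, inner_self_eq_norm_sq_to_K]
  norm_cast; positivity

lemma exists_ultralimit (ω : ℕ → B →ₗ[ℂ] ℂ) (h : ∀ n, IsSt (ω n)) :
    ∃ T : B →ₗ[ℂ] ℂ, IsSt T ∧ ∀ b, Tendsto (fun n => ω n b) (hyperfilter ℕ) (𝓝 (T b)) := by
  have : ∀ b, ∃ c, Tendsto (fun n => ω n b) (hyperfilter ℕ) (𝓝 c) := fun b => by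
    obtain ⟨c, -, hc⟩ := (isCompact_closedBall (0 : ℂ) ‖b‖).ultrafilter_le_nhds
      ((hyperfilter ℕ).map fun n => ω n b) (by
        rw [Ultrafilter.coe_map, le_principal_iff, mem_map]
        exact univ_mem' fun n => by simpa using (h n).norm_le b)
    exact ⟨c, hc⟩
  choose T hT using this
  refine ⟨⟨⟨T, fun a b => tendsto_nhds_unique (hT _) (by simpa using (hT a).add (hT b))⟩,
    fun c a => tendsto_nhds_unique (hT _) (by simpa using (hT a).const_mul c)⟩, ⟨?_, fun b => ?_⟩,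
    hT⟩
  · exact tendsto_nhds_unique (hT 1) (by simp [(h _).1])
  · exact ge_of_tendsto' (hT _) fun n => (h n).2 b

lemma isSt_of_norm_le (ω : B →ₗ[ℂ] ℂ) (h1 : ω 1 = 1) (h : ∀ b, ‖ω b‖ ≤ ‖b‖) : IsSt ω := by
  let _ := CStarAlgebra.spectralOrder B
  have := CStarAlgebra.spectralOrderedRing B
  have him : ∀ a : B, IsSelfAdjoint a → (ω a).im = 0 := fun a ha => by
    have key : ∀ t : ℝ, 2 * (ω a).im * t ≤ ‖a‖ ^ 2 := fun t => by
      have e1 := h (a + ((t : ℂ) * Complex.I) • 1)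
      have e2 : ‖a + ((t : ℂ) * Complex.I) • 1‖ ^ 2 ≤ ‖a‖ ^ 2 + t ^ 2 := by
        rw [sq, ← CStarRing.norm_star_mul_self]
        have : star (a + ((t : ℂ) * Complex.I) • 1) * (a + ((t : ℂ) * Complex.I) • 1) =
            star a * a + ((t : ℂ) ^ 2) • (1 : B) := by
          simp only [star_add, star_smul, star_one, ha.star_eq, add_mul, mul_add, smul_mul_assoc,
            mul_smul_comm, one_mul, mul_one, star_mul', Complex.star_def,
            Complex.conj_ofReal, Complex.conj_I]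
          have : (t : ℂ) * Complex.I * (t * -Complex.I) = t ^ 2 := by
            linear_combination (-(t : ℂ) ^ 2) * Complex.I_mul_I
          rw [smul_add, smul_smul, this]; module
        rw [this]
        refine (norm_add_le _ _).trans (add_le_add ?_ ?_)
        · rw [CStarRing.norm_star_mul_self, sq]
        · rw [norm_smul]
          have : ‖(1 : B)‖ ≤ 1 := norm_one_le'
          simpa using mul_le_of_le_one_right (by positivity) this
      have e3 := Complex.abs_im_le_norm (ω (a + ((t : ℂ) * Complex.I) • 1))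
      have e4 : (ω (a + ((t : ℂ) * Complex.I) • 1)).im = (ω a).im + t := by simp [h1]
      rw [e4] at e3
      have := sq_le_sq' (by linarith [abs_nonneg ((ω a).im + t), norm_nonneg (a + ((t : ℂ) * Complex.I) • 1)]) (e3.trans e1)
      rw [sq_abs] at this
      nlinarith [sq_nonneg (ω a).im]
    by_contra hne
    have := key ((‖a‖ ^ 2 + 1) / (2 * (ω a).im))
    rw [mul_div_cancel₀ _ (mul_ne_zero two_ne_zero hne)] at this
    linarith
  refine ⟨h1, fun b => ?_⟩
  set a := star b * b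
  have ha : 0 ≤ a := star_mul_self_nonneg b
  have e1 : ‖algebraMap ℝ B ‖a‖ - a‖ ≤ ‖a‖ := by
    have := CStarAlgebra.norm_le_norm_of_nonneg_of_le
      (sub_nonneg.2 (IsSelfAdjoint.le_algebraMap_norm_self ha.isSelfAdjoint))
      (sub_le_self _ ha)
    refine this.trans ?_
    rw [Algebra.algebraMap_eq_smul_one, norm_smul]
    have : ‖(1 : B)‖ ≤ 1 := norm_one_le'
    simpa using mul_le_of_le_one_right (by positivity) this
  have e2 := (Complex.re_le_norm _).trans ((h _).trans e1)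
  rw [Algebra.algebraMap_eq_smul_one, map_sub, ← Complex.coe_smul, map_smul, h1] at e2
  rw [Complex.nonneg_iff]
  exact ⟨by simpa using e2, (him a ha.isSelfAdjoint).symm⟩

lemma exists_isSt_ideal (I : TwoSidedIdeal B) (hI : I ≠ ⊤) :
    ∃ ω : B →ₗ[ℂ] ℂ, IsSt ω ∧ ∀ b ∈ I, ω b = 0 := by
  let S : Submodule ℂ B :=
    { carrier := I
      add_mem' := I.add_mem
      zero_mem' := I.zero_mem
      smul_mem' := fun c x hx => by
        rw [Algebra.smul_def]; exact I.mul_mem_left _ _ hx }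
  have h1 : 1 ≤ ‖(Submodule.Quotient.mk 1 : B ⧸ S)‖ := by
    by_contra hlt
    obtain ⟨m, hm, hm'⟩ := Submodule.Quotient.norm_mk_lt (Submodule.Quotient.mk 1 : B ⧸ S)
      (sub_pos.2 (not_le.1 hlt))
    rw [add_sub_cancel] at hm'
    have h2 : 1 - m ∈ I := (Submodule.Quotient.eq S).1 hm.symm
    have := I.mul_mem_right _ (↑(Units.oneSub m hm')⁻¹ : B) h2
    rw [show 1 - m = (Units.oneSub m hm' : B) from rfl, Units.mul_inv] at this
    exact hI (I.one_mem_iff.1 this)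
  have h2 : ‖(Submodule.Quotient.mk 1 : B ⧸ S)‖ = 1 :=
    le_antisymm ((Submodule.Quotient.norm_mk_le S 1).trans norm_one_le') h1
  obtain ⟨g, hg, hg1⟩ := exists_dual_vector'' ℂ (Submodule.Quotient.mk 1 : B ⧸ S)
  refine ⟨g.toLinearMap ∘ₗ S.mkQ, isSt_of_norm_le _ (by simpa [h2] using hg1) fun b => ?_,
    fun b hb => ?_⟩
  · refine (g.le_opNorm _).trans ?_
    exact (mul_le_of_le_one_left (norm_nonneg _) hg).trans (Submodule.Quotient.norm_mk_le S b)
  · have : S.mkQ b = 0 := (Submodule.Quotient.mk_eq_zero S).2 hb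
    simp [this]

end Crest.Agent.NAI
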