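import Crest.Agent.NAI.Flag

/-! A transversal family of pointed irreducible representations and their direct sum. -/

set_option autoImplicit false
open Filter Topology
open scoped InnerProductSpace ComplexOrder

namespace Crest.Agent.NAI

variable {A : Type} [CStarAlgebra A] {S : Sys A}
  {K : Type*} [NormedAddCommGroup K] [InnerProductSpace ℂ K] [CompleteSpace K]

lemma Flag.inner_eq (F : Flag S) {π : A →⋆ₐ[ℂ] (K →L[ℂ] K)} {x y : K}
    (hx : ∀ n, π (F.q n) x = x) (hy : ∀ n, π (F.q n) y = y) (a : A) :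
    ⟪x, π a y⟫_ℂ = F.ψ a * ⟪x, y⟫_ℂ := by
  rw [← sub_eq_zero, ← norm_le_zero_iff]
  refine le_of_forall_pos_le_add fun ε hε => ?_
  obtain ⟨n, hn⟩ := F.exc a (ε / (‖x‖ * ‖y‖ + 1)) (by positivity)
  have e : ⟪x, π a y⟫_ℂ - F.ψ a * ⟪x, y⟫_ℂ =
      ⟪x, π (F.q n * (a - F.ψ a • 1) * F.q n) y⟫_ℂ := by
    rw [← rep_mul, ← rep_mul, hy, inner_rep_right π (F.q n), (F.hq n).isSelfAdjoint.star_eq, hx]
    simp
  rw [e, zero_add]
  rw [le_div_iff₀ (by positivity)] at hn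
  refine (norm_inner_le_norm _ _).trans ?_
  have := mul_le_mul_of_nonneg_left (norm_rep_le π (F.q n * (a - F.ψ a • 1) * F.q n) y)
    (norm_nonneg x)
  nlinarith [norm_nonneg (F.q n * (a - F.ψ a • 1) * F.q n)]

lemma Flag.fix_iff (F : Flag S) {π : A →⋆ₐ[ℂ] (K →L[ℂ] K)} {x : K} :
    (∀ n, π (F.p n) x = x) ↔ ∀ m, π (S.P m) x = x := by
  constructor
  · intro h m
    obtain ⟨n, hn⟩ := F.up m
    rw [← h n, rep_mul, hn]
  · intro h n
    obtain ⟨m, hm⟩ := F.low n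
    rw [← h m, rep_mul, hm]

/-- A representation with a cyclic unit vector fixed by a flag. -/
structure PRep (S : Sys A) : Type 1 where
  R : Rep A
  F : Flag S
  x : R.K
  norm_x : ‖x‖ = 1
  fix : ∀ n, R.π (F.q n) x = x
  tot : Total fun a => R.π a x

lemma PRep.transfer (Φ : PRep S) {σ : A →⋆ₐ[ℂ] (K →L[ℂ] K)} {y z : K} (hy : ‖y‖ = 1)
    (hy' : ∀ n, σ (Φ.F.q n) y = y) (G : Flag S) (hz : ∀ n, σ (G.q n) z = z) :
    ∃ w : Φ.R.K, (∀ n, Φ.R.π (G.q n) w = w) ∧ ∀ a, ⟪Φ.R.π a Φ.x, w⟫_ℂ = ⟪σ a y, z⟫_ℂ := by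
  obtain ⟨W, hW⟩ := exists_isometry (y := fun a => σ a y) Φ.tot fun a b => by
    rw [inner_rep_left, inner_rep_left, rep_mul, rep_mul, Φ.F.inner_eq Φ.fix Φ.fix,
      Φ.F.inner_eq hy' hy', inner_self_eq_norm_sq_to_K, inner_self_eq_norm_sq_to_K, hy, Φ.norm_x]
  have h : ∀ a, ⟪Φ.R.π a Φ.x, W.toContinuousLinearMap.adjoint z⟫_ℂ = ⟪σ a y, z⟫_ℂ := fun a => by
    rw [ContinuousLinearMap.adjoint_inner_right, ← hW]; rfl
  refine ⟨_, fun n => sub_eq_zero.1 (Φ.tot _ fun a => ?_), h⟩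
  rw [inner_sub_right, inner_rep_right, rep_mul, h, h, ← rep_mul, ← inner_rep_right, hz, sub_self]

/-- A transversal. -/
structure Fam (S : Sys A) : Type 1 where
  J : Type
  o : J
  Φ : J → PRep S
  ho : (Φ o).F.q = S.P
  ho' : ∀ n, (Φ o).F.h n = 1 - (Φ o).F.p n
  sep : ∀ i j, i ≠ o → j ≠ i → ∀ z : (Φ i).R.K, (∀ n, (Φ i).R.π ((Φ j).F.q n) z = z) → z = 0
  cover : ∀ R : Rep A, Irr R.π → ∃ j, ∃ z : R.K, z ≠ 0 ∧ ∀ n, R.π ((Φ j).F.q n) z = z

omit [CompleteSpace K] in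
lemma norm_normalize {x : K} (hx : x ≠ 0) : ‖((‖x‖⁻¹ : ℝ) : ℂ) • x‖ = 1 := by
  rw [norm_smul, Complex.norm_real, norm_inv, norm_norm, inv_mul_cancel₀ (norm_ne_zero_iff.2 hx)]

theorem exists_fam {τ : A →ₗ[ℂ] ℂ} (hτ : IsSt τ) (ht : ∀ a b, τ (a * b) = τ (b * a))
    (R₀ : Rep A) (x₀ : R₀.K) (h1 : ‖x₀‖ = 1) (h2 : ∀ n, R₀.π (S.P n) x₀ = x₀)
    (h3 : Total fun a => R₀.π a x₀) : Nonempty (Fam S) := by
  let F₀ : Flag S :=
    { q := S.P, p := S.P, h := fun n => 1 - S.P n, ψ := fun a => ⟪x₀, R₀.π a x₀⟫_ℂ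
      hq := S.P_proj, hp := S.P_proj
      exc := exc_of_dense S.P_proj h1 h2 S.dense_D fun a ha ε hε => by
        obtain ⟨m, c, h⟩ := S.P_exc ha
        exact ⟨m, c, by rw [h, norm_zero]; exact hε.le⟩
      hh := fun n m => by rw [(S.P_proj n).one_sub.isSelfAdjoint.star_eq]
      hh' := fun n => by
        rw [(S.P_proj n).one_sub.isSelfAdjoint.star_eq, (S.P_proj n).one_sub.isIdempotentElem.eq]
      low := fun n => ⟨n, (S.P_proj n).isIdempotentElem⟩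
      up := fun n => ⟨n, (S.P_proj n).isIdempotentElem⟩ }
  let fs : Rep A → Set (Flag S) := fun R => {F | ∃ z : R.K, z ≠ 0 ∧ ∀ n, R.π (F.q n) z = z}
  have key : ∀ (Φ : PRep S) (R : Rep A), Irr R.π → Φ.F ∈ fs R → fs R ⊆ fs Φ.R := by
    rintro Φ R hR ⟨y, hy, hy'⟩ G ⟨z, hz, hz'⟩
    obtain ⟨w, hw, hw'⟩ := Φ.transfer (norm_normalize hy) (fun n => by rw [map_smul, hy']) G hz'
    refine ⟨w, fun h0 => hz (hR.total (x := ((‖y‖⁻¹ : ℝ) : ℂ) • y) ?_ z fun a => ?_), hw⟩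
    · intro h; have := norm_normalize hy; rw [h] at this; simp at this
    · rw [← hw', h0, inner_zero_right]
  let I := {s : Set (Flag S) // F₀ ∉ s ∧ ∃ R, Irr R.π ∧ fs R = s}
  have : ∀ i : I, ∃ Φ : PRep S, Irr Φ.R.π ∧ fs Φ.R = i.1 := by
    rintro ⟨_, h, R, hR, rfl⟩
    obtain ⟨F, x, hx, hx'⟩ := S.exists_flag hτ ht hR
    exact ⟨⟨R, F, x, hx, hx', hR.total (by rintro rfl; simp at hx)⟩, hR, rfl⟩
  choose Φ hΦ hΦ' using this
  have self : ∀ Φ : PRep S, Φ.F ∈ fs Φ.R := fun Φ =>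
    ⟨Φ.x, fun h => by simpa [h] using Φ.norm_x, Φ.fix⟩
  refine ⟨⟨Option I, none, fun j => j.elim ⟨R₀, F₀, x₀, h1, h2, h3⟩ Φ, rfl, fun _ => rfl, ?_,
    fun R hR => ?_⟩⟩
  · rintro (_ | i) j hi hj z hz
    · exact absurd rfl hi
    by_contra hz0
    rcases j with _ | j
    · exact i.2.1 (hΦ' i ▸ ⟨z, hz0, hz⟩)
    · have e1 := key (Φ j) (Φ i).R (hΦ i) ⟨z, hz0, hz⟩
      have e2 := key (Φ i) (Φ j).R (hΦ j) (e1 (self _))
      exact hj (congrArg some (Subtype.ext (by rw [← hΦ', ← hΦ']; exact e2.antisymm e1)))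
  · by_cases h : F₀ ∈ fs R
    · exact ⟨none, h⟩
    · have := self (Φ ⟨fs R, h, R, hR, rfl⟩)
      rw [hΦ'] at this
      exact ⟨some ⟨fs R, h, R, hR, rfl⟩, this⟩

namespace Fam
variable (M : Fam S)

lemma orth {σ : A →⋆ₐ[ℂ] (K →L[ℂ] K)} {i j : M.J} (hij : i ≠ j) {y z : K}
    (hy : ∀ n, σ ((M.Φ i).F.q n) y = y) (hz : ∀ n, σ ((M.Φ j).F.q n) z = z) (a : A) :
    ⟪σ a y, z⟫_ℂ = 0 := by
  wlog hi : i ≠ M.o generalizing i j y z a
  · rw [inner_rep_left, ← inner_conj_symm, this hij.symm hz hy _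
      (fun h => hij ((not_not.1 hi).trans h.symm)), map_zero]
  by_cases hy0 : y = 0
  · simp [hy0]
  obtain ⟨w, hw, hw'⟩ := (M.Φ i).transfer (norm_normalize hy0) (fun n => by rw [map_smul, hy])
    (M.Φ j).F hz
  have := hw' a
  rw [M.sep i j hi hij.symm w hw, inner_zero_right, map_smul, inner_smul_left] at this
  simpa [hy0] using this

open Classical in
lemma gram {σ : A →⋆ₐ[ℂ] (K →L[ℂ] K)} {y : M.J → K} (h1 : ∀ j, ‖y j‖ = 1)
    (hy : ∀ j n, σ ((M.Φ j).F.q n) (y j) = y j) (i j : M.J) (a b : A) :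
    ⟪σ a (y i), σ b (y j)⟫_ℂ = if i = j then (M.Φ i).F.ψ (star a * b) else 0 := by
  split_ifs with h
  · subst h
    rw [inner_rep_left, rep_mul, (M.Φ i).F.inner_eq (hy i) (hy i), inner_self_eq_norm_sq_to_K, h1]
    simp
  · rw [inner_rep_right, rep_mul, M.orth h (hy i) (hy j)]

lemma exists_sum : ∃ (R : Rep A) (X : M.J → R.K), (∀ j, ‖X j‖ = 1) ∧
    (∀ j n, R.π ((M.Φ j).F.q n) (X j) = X j) ∧ Total fun p : M.J × A => R.π p.2 (X p.1) := by
  classical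
  let H := lp (fun j => (M.Φ j).R.K) 2
  let d : A → H →L[ℂ] H := fun a => lp.mapCLM 2 (fun j => (M.Φ j).R.π a) (norm_nonneg a)
    fun j => NonUnitalStarAlgHom.norm_apply_le _ a
  have hd : ∀ a (f : H) j, d a f j = (M.Φ j).R.π a (f j) := fun a f j => rfl
  let ι : A →⋆ₐ[ℂ] (H →L[ℂ] H) :=
    { toFun := d
      map_one' := by ext f j; simp [hd]
      map_mul' := fun a b => by ext f j; simp [hd]
      map_zero' := by ext f j; simp [hd]
      map_add' := fun a b => by ext f j; simp [hd]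
      commutes' := fun c => by ext f j; simp [hd, Algebra.algebraMap_eq_smul_one]; rfl
      map_star' := fun a => by
        rw [ContinuousLinearMap.star_eq_adjoint, ContinuousLinearMap.eq_adjoint_iff]
        intro f g
        rw [lp.inner_eq_tsum, lp.inner_eq_tsum]
        simp only [hd, inner_rep_left, star_star] }
  have hs : ∀ a j (x : (M.Φ j).R.K), ι a (lp.single 2 j x) = lp.single 2 j ((M.Φ j).R.π a x) :=
    fun a j x => by
      ext k
      change d a _ k = _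
      rw [hd]
      by_cases h : k = j
      · subst h; simp
      · rw [lp.single_apply_ne _ _ _ h, lp.single_apply_ne _ _ _ h, map_zero]
  refine ⟨⟨H, ι⟩, fun j => lp.single 2 j (M.Φ j).x, fun j => ?_, fun j n => ?_, fun z hz => ?_⟩
  · exact (lp.norm_single (by norm_num) _ _).trans (M.Φ j).norm_x
  · exact (hs _ _ _).trans (by rw [(M.Φ j).fix])
  · change H at z
    ext j
    refine (M.Φ j).tot _ fun a => ?_
    have := hz (j, a)
    change ⟪ι a (lp.single 2 j _), z⟫_ℂ = 0 at this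
    rwa [hs, lp.inner_single_left] at this

end Fam

end Crest.Agent.NAI
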