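import Crest.Agent.NAI.Sys

/-! Excision by projections and linked flags. -/

set_option autoImplicit false
open Filter Topology
open scoped InnerProductSpace ComplexOrder

namespace Crest.Agent.NAI

variable {A : Type} [CStarAlgebra A]
  {K : Type*} [NormedAddCommGroup K] [InnerProductSpace ℂ K] [CompleteSpace K]

omit [CompleteSpace K] in
lemma exists_normalize {u x : K} (hx : ‖x‖ = 1) {t : ℝ} (ht : t < 1) (h : ‖u - x‖ ≤ t) :
    ∃ c : ℂ, ‖c • u‖ = 1 ∧ ‖c • u - x‖ ≤ 2 * t := by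
  have h1 : |‖u‖ - 1| ≤ t := by rw [← hx]; exact (abs_norm_sub_norm_le u x).trans h
  have h2 : 0 < ‖u‖ := by linarith [(abs_le.1 h1).1]
  have h3 : ‖((‖u‖⁻¹ : ℝ) : ℂ) • u‖ = 1 := by
    rw [norm_smul, Complex.norm_real, norm_inv, norm_norm, inv_mul_cancel₀ h2.ne']
  refine ⟨_, h3, ?_⟩
  have h4 : ((‖u‖⁻¹ : ℝ) : ℂ) • u - u = ((1 - ‖u‖ : ℝ) : ℂ) • ((‖u‖⁻¹ : ℝ) : ℂ) • u := by
    rw [smul_smul, ← Complex.ofReal_mul, sub_mul, one_mul, mul_inv_cancel₀ h2.ne',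
      Complex.ofReal_sub, sub_smul, Complex.ofReal_one, one_smul]
  calc _ = ‖(((‖u‖⁻¹ : ℝ) : ℂ) • u - u) + (u - x)‖ := by rw [sub_add_sub_cancel]
    _ ≤ _ := norm_add_le _ _
    _ ≤ t + t := by
      rw [h4, norm_smul, h3, mul_one, Complex.norm_real, Real.norm_eq_abs, abs_sub_comm]
      exact add_le_add h1 h
    _ = 2 * t := by ring

namespace Sys
variable (S : Sys A) {π : A →⋆ₐ[ℂ] (K →L[ℂ] K)}

lemma excise (hπ : Irr π) {q a : A} (hq : q ∈ S.D) (hq' : IsStarProjection q) (ha : a ∈ S.D)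
    {x : K} (hx : ‖x‖ = 1) (hqx : π q x = x) {ε : ℝ} (hε : 0 < ε) (hε1 : ε ≤ 1) :
    ∃ q' ∈ S.D, IsStarProjection q' ∧ q * q' = q' ∧
      ‖q' * (a - ⟪x, π a x⟫_ℂ • 1) * q'‖ ≤ ε ∧ ∃ x', ‖x'‖ = 1 ∧ π q' x' = x' ∧ ‖x' - x‖ ≤ ε := by
  set c := a - ⟪x, π a x⟫_ℂ • 1 with hc
  have hcD : c ∈ S.D := sub_mem ha (S.D.smul_mem (one_mem _) _)
  have hδ : 0 < ε ^ 2 / 8 := by positivity
  have hx0 : x ≠ 0 := by rintro rfl; simp at hx
  obtain ⟨y, hy, h1, h2⟩ := hπ.density S.dense_D hx0 (z := π c x) (by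
    simp [hc, inner_self_eq_norm_sq_to_K, hx]) hδ
  have hqs := hq'.isSelfAdjoint.star_eq
  have hqq := hq'.isIdempotentElem.eq
  obtain ⟨r, hr, hr', h3, h4, z, h5⟩ := S.spec (mul_mem (star_mem hy) hq)
    (mul_mem (sub_mem hcD hy) hq) hδ
  set b := star (star y * q) * (star y * q) + star ((c - y) * q) * ((c - y) * q) with hb
  have hqb : q * b = b := by simp only [hb, star_mul, hqs, mul_add, ← mul_assoc, hqq]
  have hbq : b * q = b := by simp only [hb, add_mul, mul_assoc, hqq]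
  have hrq : Commute r q := h3 q (hbq.trans hqb.symm)
  have hp := hr'.mul hq' hrq
  have hqp : q * (r * q) = r * q := by rw [← mul_assoc, ← hrq.eq, mul_assoc, hqq]
  have hn : ‖star (star y * (r * q)) * (star y * (r * q)) +
      star ((c - y) * (r * q)) * ((c - y) * (r * q))‖ ≤ ε ^ 2 / 8 := by
    have : star (star y * (r * q)) * (star y * (r * q)) +
        star ((c - y) * (r * q)) * ((c - y) * (r * q)) = (r * q) * (b * r) * (r * q) := by
      rw [mul_assoc (r * q), mul_assoc b, ← mul_assoc r r, hr'.isIdempotentElem.eq]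
      have hs := hp.isSelfAdjoint.star_eq
      have hpq := proj_comm hq' hp hqp
      generalize r * q = t at hs hqp hpq
      have hpq' : ∀ w, t * (q * w) = t * w := fun w => by rw [← mul_assoc, hpq]
      simp only [hb, star_mul, hs, hqs, add_mul, mul_add, mul_assoc, hqp, hpq']
    rw [this]; exact (norm_cut_le hp _).trans h4
  have n1 : ‖star y * (r * q)‖ ≤ ε / 2 := by
    have := (norm_sq_le_add _ _).trans hn
    exact abs_le_of_sq_le_sq' (by nlinarith) (by positivity) |>.2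
  have n2 : ‖(c - y) * (r * q)‖ ≤ ε / 2 := by
    rw [add_comm] at hn
    have := (norm_sq_le_add _ _).trans hn
    exact abs_le_of_sq_le_sq' (by nlinarith) (by positivity) |>.2
  have hm : ‖π (r * q) x - x‖ ≤ ε / 2 := by
    have e1 := norm_rep_sq π z x
    have e2 := norm_rep_sq π (1 - r) x
    have e3 := norm_rep_sq π (star y * q) x
    have e4 := norm_rep_sq π ((c - y) * q) x
    rw [hr'.one_sub.isSelfAdjoint.star_eq, hr'.one_sub.isIdempotentElem.eq] at e2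
    rw [h5, map_sub, hb, map_add, map_smul, sub_apply, add_apply, smul_apply,
      inner_sub_right, inner_add_right, inner_smul_right, Complex.sub_re, Complex.add_re,
      Complex.re_ofReal_mul, ← e2, ← e3, ← e4, ← rep_mul, ← rep_mul, hqx] at e1
    have e5 : ‖π (c - y) x‖ < ε ^ 2 / 8 := by rwa [map_sub, sub_apply, norm_sub_rev]
    have e6 : ‖π (1 - r) x‖ ^ 2 ≤ (ε / 2) ^ 2 := by
      have f1 : ‖π (star y) x‖ ^ 2 ≤ (ε ^ 2 / 8) ^ 2 := by gcongr
      have f2 : ‖π (c - y) x‖ ^ 2 ≤ (ε ^ 2 / 8) ^ 2 := by gcongr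
      have f3 : ε ^ 2 / 8 * ‖π (1 - r) x‖ ^ 2 ≤ ε ^ 2 / 8 * (ε / 2) ^ 2 := by
        nlinarith [sq_nonneg ‖π z x‖]
      exact le_of_mul_le_mul_left f3 hδ
    rw [← rep_mul, hqx, norm_sub_rev]
    have := (abs_le_of_sq_le_sq' e6 (by positivity)).2
    simpa using this
  obtain ⟨d, h6, h7⟩ := exists_normalize hx (by linarith) hm
  refine ⟨r * q, mul_mem hr hq, hp, hqp, ?_, _, h6, ?_, by linarith⟩
  · have : r * q * c * (r * q) = star (star y * (r * q)) * (r * q) + (r * q) * ((c - y) * (r * q)) := by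
      rw [star_mul, star_star, hp.isSelfAdjoint.star_eq]; noncomm_ring
    rw [this]
    have := hp.norm_le
    calc _ ≤ ‖star (star y * (r * q))‖ * ‖r * q‖ + ‖r * q‖ * ‖(c - y) * (r * q)‖ :=
          (norm_add_le _ _).trans (add_le_add (norm_mul_le _ _) (norm_mul_le _ _))
      _ ≤ ε / 2 * 1 + 1 * (ε / 2) := by rw [norm_star]; gcongr
      _ = ε := by ring
  · rw [map_smul, rep_mul, hp.isIdempotentElem.eq]

variable {τ : A →ₗ[ℂ] ℂ} (hτ : IsSt τ) (ht : ∀ a b, τ (a * b) = τ (b * a))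

include hτ ht in
lemma excise_small (hπ : Irr π) {q : A} (hq : q ∈ S.D) (hq' : IsStarProjection q)
    {x : K} (hx : ‖x‖ = 1) (hqx : π q x = x) {ε : ℝ} (hε : 0 < ε) (hε1 : ε ≤ 1 / 2) (m : ℕ) :
    ∃ q' ∈ S.D, IsStarProjection q' ∧ q * q' = q' ∧ (τ q').re ≤ (1 / 2) ^ m ∧
      ∃ x', ‖x'‖ = 1 ∧ π q' x' = x' ∧ ‖x' - x‖ ≤ ε := by
  obtain ⟨i, hi⟩ : ∃ i, π (S.e (m + 2) 0 i) x ≠ 0 := by
    by_contra hn
    push Not at hn
    have : π (∑ i, S.e (m + 2) i i) x = 0 := by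
      rw [map_sum, sum_apply]
      refine Finset.sum_eq_zero fun i _ => ?_
      have : S.e (m + 2) i i = S.e (m + 2) i 0 * S.e (m + 2) 0 i := by simp [e_mul]
      rw [this, ← rep_mul, hn, map_zero]
    rw [sum_e, map_one] at this
    change x = 0 at this
    rw [this] at hx; simp at hx
  let y := ((‖π (S.e (m + 2) 0 i) x‖⁻¹ : ℝ) : ℂ) • S.e (m + 2) 0 i
  have hy : y ∈ S.D := S.D.smul_mem (S.e_mem _ _ _) _
  have hPy : S.P (m + 2) * y = y := by simp [y, P, e_mul]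
  have hyx : ‖π y x‖ = 1 := by
    simp only [y, map_smul, smul_apply, norm_smul, Complex.norm_real, norm_inv, norm_norm]
    exact inv_mul_cancel₀ (norm_ne_zero_iff.2 hi)
  obtain ⟨q', h1, h2, h3, h4, h5⟩ := S.excise hπ hq hq' (mul_mem (star_mem hy) hy) hx hqx hε
    (by linarith)
  refine ⟨q', h1, h2, h3, ?_, h5⟩
  rw [← rep_mul, ← inner_rep_left, inner_self_eq_norm_sq_to_K, hyx] at h4
  simp only [Complex.coe_algebraMap, Complex.ofReal_one, one_pow, one_smul] at h4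
  have hs := h2.isSelfAdjoint.star_eq
  have hi := h2.isIdempotentElem.eq
  have e1 : q' * (star y * y - 1) * q' = star (y * q') * (y * q') - q' := by
    rw [star_mul, hs, mul_sub, sub_mul, mul_one, hi]; noncomm_ring
  have e2 := hτ.norm_conj_le (q' * (star y * y - 1) * q') q'
  rw [hs, hi, ← mul_assoc, ← mul_assoc, hi, mul_assoc _ q' q', hi] at e2
  have e3 := hτ.norm_conj_le (y * q' * star (y * q')) (S.P (m + 2))
  have hP := S.P_proj (m + 2)
  have e4 : star (S.P (m + 2)) * (y * q' * star (y * q')) * S.P (m + 2) =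
      y * q' * star (y * q') := by
    have : star (y * q') * S.P (m + 2) = star (y * q') := by
      rw [← hP.isSelfAdjoint.star_eq, ← star_mul, ← mul_assoc, hPy]
    rw [hP.isSelfAdjoint.star_eq, mul_assoc, mul_assoc, this, ← mul_assoc, ← mul_assoc, hPy]
  rw [e4, hP.isSelfAdjoint.star_eq, hP.isIdempotentElem.eq, S.tr_P hτ.1 ht, ht,
    CStarRing.norm_self_mul_star, ← CStarRing.norm_star_mul_self] at e3
  have e5 : ‖star (y * q') * (y * q')‖ ≤ 3 / 2 := by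
    have := norm_add_le (star (y * q') * (y * q') - q') q'
    rw [sub_add_cancel, ← e1] at this
    linarith [h2.norm_le]
  have e6 := (Complex.re_le_norm _).trans e3
  have e7 := (Complex.abs_re_le_norm _).trans e2
  rw [e1, map_sub, Complex.sub_re, ← e1] at e7
  have e8 : 0 ≤ (τ q').re := by
    have := (Complex.nonneg_iff.1 (hτ.2 q')).1
    rwa [hs, hi] at this
  have e9 := (abs_le.1 e7).1
  have : (0 : ℝ) < (1 / 2) ^ m := by positivity
  rw [pow_add] at e6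
  nlinarith

/-- The invariant of the back-and-forth construction. -/
def Inv (π : A →⋆ₐ[ℂ] (K →L[ℂ] K)) (s : A × A × A × K) : Prop :=
  s.1 ∈ S.D ∧ s.2.1 ∈ S.D ∧ IsStarProjection s.1 ∧ IsStarProjection s.2.1 ∧
    star s.2.2.1 * s.2.2.1 = 1 - s.1 ∧ s.2.2.1 * star s.2.2.1 = 1 - s.2.1 ∧
    (∃ m, s.1 * S.P m = S.P m) ∧ ‖s.2.2.2‖ = 1 ∧ π s.2.1 s.2.2.2 = s.2.2.2

include hτ ht in
lemma step (hπ : Irr π) (s : A × A × A × K) (hs : S.Inv π s) {a : A} (ha : a ∈ S.D) (k : ℕ) :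
    ∃ s' : A × A × A × K, S.Inv π s' ∧ s.1 * s'.1 = s'.1 ∧ s.2.1 * s'.2.1 = s'.2.1 ∧
      s'.2.2.1 * (1 - s.1) = s.2.2.1 ∧ S.P k * s'.1 = s'.1 ∧
      ‖s'.2.2.2 - s.2.2.2‖ ≤ (1 / 2) ^ k ∧
      ∃ c : ℂ, ‖s'.2.1 * (a - c • 1) * s'.2.1‖ ≤ (1 / 2) ^ k := by
  obtain ⟨p, q, h, x⟩ := s
  obtain ⟨hp, hq, hp', hq', h1, h2, ⟨m₀, h3⟩, hx, hqx⟩ := hs
  dsimp only at hp hq hp' hq' h1 h2 h3 hx hqx ⊢
  have hε : (0 : ℝ) < (1 / 2) ^ k / 2 := by positivity
  have hε1 : (1 / 2 : ℝ) ^ k ≤ 1 := pow_le_one₀ (by norm_num) (by norm_num)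
  obtain ⟨q₁, a1, a2, a3, a4, x₁, a5, a6, a7⟩ := S.excise hπ hq hq' ha hx hqx hε (by linarith)
  set m := max m₀ k
  obtain ⟨q₂, b1, b2, b3, b4, x₂, b5, b6, b7⟩ :=
    S.excise_small hτ ht hπ a1 a2 a5 a6 hε (by linarith) m
  have hq0 : q₂ ≠ 0 := by
    rintro rfl
    rw [map_zero] at b6
    change 0 = x₂ at b6
    rw [← b6] at b5; simp at b5
  obtain ⟨n, hn, hn'⟩ : ∃ n, m ≤ n ∧ (1 / 2 : ℝ) ^ n ≤ (τ q₂).re :=
    ((eventually_ge_atTop m).and ((tendsto_pow_atTop_nhds_zero_of_lt_one (by norm_num)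
      (by norm_num)).eventually (ge_mem_nhds (S.tr_pos hτ.1 ht b1 b2 hq0)))).exists
  obtain ⟨g, c1, c2, c3, c4⟩ := S.sub_proj hτ.1 ht (S.P_mem n) b1 (S.P_proj n) b2
    (by rwa [S.tr_P hτ.1 ht])
  have hPP := (S.P_proj n).sub_of_mul_eq_right (S.P_proj m) (S.P_anti hn)
  obtain ⟨g', d1, d2, d3, d4⟩ := S.sub_proj hτ.1 ht (sub_mem b1 c1)
    (sub_mem (S.P_mem m) (S.P_mem n)) (c2.sub_of_mul_eq_right b2 c3) hPP
    (by rw [map_sub, map_sub, c4, Complex.sub_re, Complex.sub_re, S.tr_P hτ.1 ht m]; linarith)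
  have e0 : S.P n * g' = 0 := by
    rw [← d3, ← mul_assoc, mul_sub, proj_comm (S.P_proj m) (S.P_proj n) (S.P_anti hn),
      (S.P_proj n).isIdempotentElem.eq, sub_self, zero_mul]
  have e1 : IsStarProjection (S.P n + g') := (S.P_proj n).add d2 e0
  have e2 : S.P m * (S.P n + g') = S.P n + g' := by
    rw [mul_add, S.P_anti hn, ← sub_add_cancel (S.P m) (S.P n), add_mul, d3, e0, add_zero]
  have e3 : p * (S.P n + g') = S.P n + g' := by
    rw [← e2, ← S.P_anti (le_max_left m₀ k), ← mul_assoc, ← mul_assoc, h3]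
  have e4 : q * q₂ = q₂ := by rw [← b3, ← mul_assoc, a3]
  have f1 := e1.sub_of_mul_eq_right hp' e3
  have f2 := b2.sub_of_mul_eq_right hq' e4
  obtain ⟨u, u1, u2⟩ := S.eqv hτ.1 ht (sub_mem hp (add_mem (S.P_mem n) d1)) (sub_mem hq b1) f1 f2
    (by
      have := ht (star h) h
      rw [h1, h2, map_sub, map_sub, sub_right_inj] at this
      rw [map_sub, map_sub, map_add, d4, map_sub, c4, this]; ring)
  have g1 : h * (1 - p) = h := pi_mul hp'.one_sub h1
  have g2 : star h * (1 - q) = star h := pi_mul hq'.one_sub (by rwa [star_star])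
  have g3 : u * (p - (S.P n + g')) = u := pi_mul f1 u1
  have g4 : star u * (q - q₂) = star u := pi_mul f2 (by rwa [star_star])
  have g5 : u * (1 - p) = 0 := by
    rw [← g3, mul_assoc, sub_mul, hp'.mul_one_sub_self, mul_one_sub, proj_comm hp' e1 e3,
      sub_self, sub_zero, mul_zero]
  have g6 : star u * (1 - q) = 0 := by
    rw [← g4, mul_assoc, sub_mul, hq'.mul_one_sub_self, mul_one_sub, proj_comm hq' b2 e4,
      sub_self, sub_zero, mul_zero]
  have g7 : u * star h = 0 := by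
    rw [← g1, star_mul, hp'.one_sub.isSelfAdjoint.star_eq, ← mul_assoc, g5, zero_mul]
  have g8 : star u * h = 0 := by
    have : h = (1 - q) * h := by
      simpa [hq'.isSelfAdjoint.star_eq] using (congrArg star g2).symm
    rw [this, ← mul_assoc, g6, zero_mul]
  have g9 : h * star u = 0 := by simpa using congrArg star g7
  have g10 : star h * u = 0 := by simpa using congrArg star g8
  refine ⟨(S.P n + g', q₂, h + u, x₂), ⟨add_mem (S.P_mem n) d1, b1, e1, b2, ?_, ?_, ⟨n, ?_⟩, b5, b6⟩,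
    e3, e4, ?_, ?_, ?_, ⟪x, π a x⟫_ℂ, ?_⟩ <;> dsimp only
  · rw [star_add, add_mul, mul_add, mul_add, h1, g8, g10, u1]; abel
  · rw [star_add, add_mul, mul_add, mul_add, h2, g7, g9, u2]; abel
  · have : g' * S.P n = 0 := by
      simpa [d2.isSelfAdjoint.star_eq, (S.P_proj n).isSelfAdjoint.star_eq] using congrArg star e0
    rw [add_mul, this, (S.P_proj n).isIdempotentElem.eq, add_zero]
  · rw [add_mul, g1, g5, add_zero]
  · rw [← e2, ← mul_assoc, S.P_anti (le_max_right m₀ k)]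
  · have := norm_add_le (x₂ - x₁) (x₁ - x)
    rw [sub_add_sub_cancel] at this
    linarith
  · have := norm_cut_le b2 (q₁ * (a - ⟪x, π a x⟫_ℂ • 1) * q₁)
    rw [← mul_assoc, ← mul_assoc, proj_comm a2 b2 b3, mul_assoc _ q₁, b3] at this
    linarith

end Sys

lemma exc_of_dense {π : A →⋆ₐ[ℂ] (K →L[ℂ] K)} {q : ℕ → A} (hq : ∀ n, IsStarProjection (q n))
    {x : K} (hx : ‖x‖ = 1) (hqx : ∀ n, π (q n) x = x) {G : Set A} (hG : Dense G)
    (h : ∀ a ∈ G, ∀ ε > 0, ∃ (n : ℕ) (c : ℂ), ‖q n * (a - c • 1) * q n‖ ≤ ε) (a : A) (ε : ℝ)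
    (hε : 0 < ε) : ∃ n, ‖q n * (a - ⟪x, π a x⟫_ℂ • 1) * q n‖ ≤ ε := by
  obtain ⟨b, hb, hab⟩ := Metric.mem_closure_iff.1 (hG a) (ε / 4) (by positivity)
  obtain ⟨n, c, hc⟩ := h b hb (ε / 4) (by positivity)
  rw [dist_eq_norm] at hab
  have h1 : ‖q n * (a - c • 1) * q n‖ ≤ ε / 2 := by
    have e : q n * (a - c • 1) * q n = q n * (a - b) * q n + q n * (b - c • 1) * q n := by
      noncomm_ring
    rw [e]
    linarith [norm_add_le (q n * (a - b) * q n) (q n * (b - c • 1) * q n),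
      norm_cut_le (hq n) (a - b)]
  have h2 : ‖⟪x, π a x⟫_ℂ - c‖ ≤ ε / 2 := by
    have e : ⟪x, π a x⟫_ℂ - c = ⟪x, π (q n * (a - c • 1) * q n) x⟫_ℂ := by
      rw [← rep_mul, ← rep_mul, hqx, inner_rep_right π (q n), (hq n).isSelfAdjoint.star_eq, hqx]
      simp [inner_self_eq_norm_sq_to_K, hx]
    rw [e]
    refine (norm_inner_le_norm _ _).trans ?_
    have := norm_rep_le π (q n * (a - c • 1) * q n) x
    rw [hx] at this ⊢
    linarith
  refine ⟨n, ?_⟩
  have e : q n * (a - ⟪x, π a x⟫_ℂ • 1) * q n =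
      q n * (a - c • 1) * q n - (⟪x, π a x⟫_ℂ - c) • q n := by
    simp only [mul_sub, sub_mul, mul_smul_comm, mul_one, smul_mul_assoc,
      (hq n).isIdempotentElem.eq, sub_smul]
    abel
  rw [e]
  refine (norm_sub_le _ _).trans ?_
  rw [norm_smul]
  nlinarith [(hq n).norm_le, norm_nonneg (⟪x, π a x⟫_ℂ - c), norm_nonneg (q n)]

/-- A sequence of projections excising a state, linked to the standard sequence. -/
structure Flag (S : Sys A) where
  q : ℕ → A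
  p : ℕ → A
  h : ℕ → A
  ψ : A → ℂ
  hq : ∀ n, IsStarProjection (q n)
  hp : ∀ n, IsStarProjection (p n)
  exc : ∀ a, ∀ ε > 0, ∃ n, ‖q n * (a - ψ a • 1) * q n‖ ≤ ε
  hh : ∀ n m, star (h n) * h m = (1 - p n) * (1 - p m)
  hh' : ∀ n, h n * star (h n) = 1 - q n
  low : ∀ n, ∃ m, p n * S.P m = S.P m
  up : ∀ m, ∃ n, S.P m * p n = p n

theorem Sys.exists_flag (S : Sys A) {τ : A →ₗ[ℂ] ℂ} (hτ : IsSt τ)
    (ht : ∀ a b, τ (a * b) = τ (b * a)) {π : A →⋆ₐ[ℂ] (K →L[ℂ] K)} (hπ : Irr π) :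
    ∃ (F : Flag S) (x : K), ‖x‖ = 1 ∧ ∀ n, π (F.q n) x = x := by
  obtain ⟨g, hg, hg'⟩ := S.exists_seq
  obtain ⟨x₀, hx₀⟩ := hπ.1
  have : Nontrivial K := ⟨x₀, 0, hx₀⟩
  obtain ⟨x₁, hx₁⟩ := exists_norm_eq K zero_le_one
  choose f hf using fun (k : ℕ) (s : {s // S.Inv π s}) =>
    S.step hτ ht hπ s.1 s.2 (hg (Nat.unpair k).1) k
  let s : ℕ → {s // S.Inv π s} := fun n => Nat.rec
    ⟨(1, 1, 0, x₁), one_mem _, one_mem _, .one A, .one A, by simp, by simp, ⟨0, one_mul _⟩, hx₁,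
      by simp⟩ (fun k s => ⟨f k s, (hf k s).1⟩) n
  have hs : ∀ k, (s (k + 1)).1 = f k (s k) := fun k => rfl
  let p := fun n => (s n).1.1
  let q := fun n => (s n).1.2.1
  let h := fun n => (s n).1.2.2.1
  let y := fun n => (s n).1.2.2.2
  have hp : ∀ n, IsStarProjection (p n) := fun n => (s n).2.2.2.1
  have hq : ∀ n, IsStarProjection (q n) := fun n => (s n).2.2.2.2.1
  have h1 : ∀ n, star (h n) * h n = 1 - p n := fun n => (s n).2.2.2.2.2.1
  have h2 : ∀ n, h n * star (h n) = 1 - q n := fun n => (s n).2.2.2.2.2.2.1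
  have h3 : ∀ n, ∃ m, p n * S.P m = S.P m := fun n => (s n).2.2.2.2.2.2.2.1
  have h4 : ∀ n, ‖y n‖ = 1 := fun n => (s n).2.2.2.2.2.2.2.2.1
  have h5 : ∀ n, π (q n) (y n) = y n := fun n => (s n).2.2.2.2.2.2.2.2.2
  have k1 : ∀ n, p n * p (n + 1) = p (n + 1) := fun n => (hf n (s n)).2.1
  have k2 : ∀ n, q n * q (n + 1) = q (n + 1) := fun n => (hf n (s n)).2.2.1
  have k3 : ∀ n, h (n + 1) * (1 - p n) = h n := fun n => (hf n (s n)).2.2.2.1
  have k4 : ∀ n, S.P n * p (n + 1) = p (n + 1) := fun n => (hf n (s n)).2.2.2.2.1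
  have k5 : ∀ n, ‖y (n + 1) - y n‖ ≤ (1 / 2) ^ n := fun n => (hf n (s n)).2.2.2.2.2.1
  have k6 : ∀ n, ∃ c : ℂ, ‖q (n + 1) * (g (Nat.unpair n).1 - c • 1) * q (n + 1)‖ ≤ (1 / 2) ^ n :=
    fun n => (hf n (s n)).2.2.2.2.2.2
  have anti : ∀ r : ℕ → A, (∀ n, IsStarProjection (r n)) → (∀ n, r n * r (n + 1) = r (n + 1)) →
      ∀ n m, n ≤ m → r n * r m = r m := fun r hr hr' n m hnm => by
    induction m, hnm using Nat.le_induction with
    | base => exact (hr n).isIdempotentElem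
    | succ m _ ih => rw [← hr', ← mul_assoc, ih]
  have l1 : ∀ n m, n ≤ m → h m * (1 - p n) = h n := fun n m hnm => by
    induction m, hnm using Nat.le_induction with
    | base => exact pi_mul (hp n).one_sub (h1 n)
    | succ m hm ih =>
      have : 1 - p n = (1 - p m) * (1 - p n) := by
        rw [sub_mul, one_mul, mul_sub, mul_one, proj_comm (hp n) (hp m) (anti p hp k1 n m hm),
          sub_self, sub_zero]
      rw [this, ← mul_assoc, k3, ih]
  have l2 : ∀ n m, n ≤ m → star (h m) * h n = (1 - p m) * (1 - p n) := fun n m hnm => by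
    rw [← l1 n m hnm, ← mul_assoc, h1]
  obtain ⟨x, hx⟩ := cauchySeq_tendsto_of_complete (cauchySeq_of_le_geometric (f := y) (1 / 2) 1
    (by norm_num) fun n => by rw [dist_comm, dist_eq_norm, one_mul]; exact k5 n)
  have hx1 : ‖x‖ = 1 := tendsto_nhds_unique hx.norm (by simp [h4])
  have hqx : ∀ n, π (q n) x = x := fun n => by
    refine tendsto_nhds_unique (((π (q n)).continuous.tendsto x).comp hx) (hx.congr' ?_)
    filter_upwards [eventually_ge_atTop n] with m hm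
    rw [Function.comp_apply, ← h5 m, rep_mul, anti q hq k2 n m hm]
  refine ⟨⟨q, p, h, fun a => ⟪x, π a x⟫_ℂ, hq, hp, exc_of_dense hq hx1 hqx hg' ?_, fun n m => ?_, h2,
    h3, fun m => ⟨m + 1, k4 m⟩⟩, x, hx1, hqx⟩
  · rintro _ ⟨i, rfl⟩ ε hε
    obtain ⟨j, hj⟩ := exists_pow_lt_of_lt_one hε (by norm_num : (1 / 2 : ℝ) < 1)
    obtain ⟨c, hc⟩ := k6 (Nat.pair i j)
    rw [Nat.unpair_pair] at hc
    have : (1 / 2 : ℝ) ^ Nat.pair i j ≤ (1 / 2) ^ j :=
      pow_le_pow_of_le_one (by norm_num) (by norm_num) (Nat.right_le_pair i j)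
    exact ⟨Nat.pair i j + 1, c, hc.trans (this.trans hj.le)⟩
  · rcases le_total n m with hnm | hnm
    · have := congrArg star (l2 n m hnm)
      rwa [star_mul, star_star, star_mul, (hp n).one_sub.isSelfAdjoint.star_eq,
        (hp m).one_sub.isSelfAdjoint.star_eq] at this
    · exact l2 m n hnm

end Crest.Agent.NAI
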