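import Crest.Agent.NAI.Fam

/-! Gluing all irreducible representations together. -/

set_option autoImplicit false
open Filter Topology
open scoped InnerProductSpace ComplexOrder

namespace Crest.Agent.NAI

variable {A : Type} [CStarAlgebra A] {S : Sys A}

lemma hypertrace (S : Sys A) {B : Type} [CStarAlgebra B] (ι : A →⋆ₐ[ℂ] B) {φ : B →ₗ[ℂ] ℂ}
    (hφ : IsSt φ) (h : ∀ n, φ (ι (S.P n)) = 1) :
    ∃ T : B →ₗ[ℂ] ℂ, IsSt T ∧ ∀ a y, T (ι a * y) = T (y * ι a) := by
  let ω : ℕ → B →ₗ[ℂ] ℂ := fun n => ((2 : ℂ) ^ n)⁻¹ • ∑ i : Fin (2 ^ n),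
    φ ∘ₗ LinearMap.mulLeft ℂ (ι (S.e n 0 i)) ∘ₗ LinearMap.mulRight ℂ (ι (S.e n i 0))
  have hω : ∀ n b, ω n b = ((2 : ℂ) ^ n)⁻¹ * ∑ i : Fin (2 ^ n),
      φ (ι (S.e n 0 i) * (b * ι (S.e n i 0))) := fun n b => by simp [ω]
  obtain ⟨T, hT, hT'⟩ := exists_ultralimit ω fun n => ⟨by
    have : φ (ι (S.e n 0 0)) = 1 := h n
    simp [hω, ← map_mul, S.e_mul, this], fun b => by
    rw [hω]
    refine mul_nonneg (by positivity) (Finset.sum_nonneg fun i _ => ?_)
    have := hφ.2 (b * ι (S.e n i 0))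
    rwa [star_mul, ← map_star, S.star_e, mul_assoc, ← mul_assoc (star b)] at this⟩
  refine ⟨T, hT, fun a y => ?_⟩
  have hc := hT.continuous
  have hι := rep_continuous ι
  refine S.dense_D.induction ?_ (isClosed_eq (by fun_prop) (by fun_prop)) a
  rintro _ ⟨m, M, rfl⟩
  refine tendsto_nhds_unique (hT' _) ((hT' _).congr' ?_)
  filter_upwards [Nat.hyperfilter_le_atTop (eventually_ge_atTop m)] with n hn
  obtain ⟨N, hN⟩ := S.mono' hn M
  have : ∀ k l, ω n (y * ι (S.e n k l)) = ω n (ι (S.e n k l) * y) := fun k l => by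
    rw [hω, hω]
    congr 1
    have e1 : ∀ i, ι (S.e n 0 i) * (y * ι (S.e n k l) * ι (S.e n i 0)) =
        if l = i then ι (S.e n 0 l) * (y * ι (S.e n k 0)) else 0 := fun i => by
      rw [mul_assoc y, ← map_mul, S.e_mul]; split_ifs with h <;> simp [h]
    have e2 : ∀ i, ι (S.e n 0 i) * (ι (S.e n k l) * y * ι (S.e n i 0)) =
        if i = k then ι (S.e n 0 l) * (y * ι (S.e n k 0)) else 0 := fun i => by
      rw [mul_assoc _ y, ← mul_assoc, ← map_mul, S.e_mul]; split_ifs with h <;> simp [h]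
    simp [e1, e2, apply_ite φ]
  simp [← hN, S.ρ_eq, Finset.mul_sum, Finset.sum_mul, this]

/-- The glued algebra with its structure. -/
structure Glue (M : Fam S) (B : Type) [CStarAlgebra B] : Type 1 where
  ι : A →⋆ₐ[ℂ] B
  v : M.J → B
  R : Rep B
  X : M.J → R.K
  inj : Function.Injective R.π
  hv1 : ∀ j, star (v j) * v j = 1
  hv2 : ∀ j, v j * star (v j) = 1
  hv3 : ∀ j n, v j * ι (1 - (M.Φ j).F.p n) = ι ((M.Φ j).F.h n)
  hX : ∀ j, ‖X j‖ = 1
  fix : ∀ j n, R.π (ι ((M.Φ j).F.q n)) (X j) = X j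
  tot : Total fun p : M.J × A => R.π (ι p.2) (X p.1)
  tot' : ∀ j, Total fun o : Option (ℕ × R.K) =>
    o.elim (X M.o) fun p => R.π (ι (1 - (M.Φ j).F.p p.1)) p.2
  hvX : ∀ j, R.π (v j) (X M.o) = X j
  gen : ∀ C : StarSubalgebra ℂ B, IsClosed (C : Set B) → (∀ a, ι a ∈ C) → (∀ j, v j ∈ C) → C = ⊤

theorem exists_glue (M : Fam S) : ∃ (B : Type) (_ : CStarAlgebra B), Nonempty (Glue M B) := by
  obtain ⟨R, X, h1, h2, h3⟩ := M.exists_sum
  have uniq : ∀ j z, (∀ n, R.π ((M.Φ j).F.q n) z = z) → ⟪X j, z⟫_ℂ = 0 → z = 0 :=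
    fun j z hz hz' => h3 z fun p => by
      by_cases h : p.1 = j
      · rw [inner_rep_left, h, (M.Φ j).F.inner_eq (h2 j) hz, hz', mul_zero]
      · exact M.orth h (h2 _) hz _
  have fixo : ∀ j n, R.π ((M.Φ j).F.p n) (X M.o) = X M.o := fun j =>
    (M.Φ j).F.fix_iff.2 (M.ho ▸ h2 M.o)
  have t1 : ∀ j, Total fun o : Option (ℕ × R.K) =>
      o.elim (X M.o) fun p => R.π (1 - (M.Φ j).F.p p.1) p.2 := fun j z hz => by
    refine uniq M.o z (M.ho ▸ (M.Φ j).F.fix_iff.1 fun n => ?_) (hz none)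
    have := hz (some (n, R.π (1 - (M.Φ j).F.p n) z))
    simp only [Option.elim] at this
    rw [inner_rep_left, ((M.Φ j).F.hp n).one_sub.isSelfAdjoint.star_eq, inner_self_eq_zero] at this
    exact (sub_eq_zero.1 (by simpa using this)).symm
  have t2 : ∀ j, Total fun o : Option (ℕ × R.K) =>
      o.elim (X j) fun p => R.π ((M.Φ j).F.h p.1) p.2 := fun j z hz => by
    refine uniq j z (fun n => ?_) (hz none)
    have := hz (some (n, R.π (star ((M.Φ j).F.h n)) z))
    simp only [Option.elim] at this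
    rw [inner_rep_left, inner_self_eq_zero] at this
    have := congrArg (R.π ((M.Φ j).F.h n)) this
    rw [rep_mul, (M.Φ j).F.hh'] at this
    exact (sub_eq_zero.1 (by simpa using this)).symm
  have z1 : ∀ j n, R.π (star (1 - (M.Φ j).F.p n)) (X M.o) = 0 := fun j n => by
    rw [((M.Φ j).F.hp n).one_sub.isSelfAdjoint.star_eq]; simp [fixo]
  have z2 : ∀ j n, R.π (star ((M.Φ j).F.h n)) (X j) = 0 := fun j n => by
    rw [← h2 j n, rep_mul, ← pi_mul ((M.Φ j).F.hq n).one_sub (w := star ((M.Φ j).F.h n))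
      (by rw [star_star, (M.Φ j).F.hh']), mul_assoc, ((M.Φ j).F.hq n).one_sub_mul_self]
    simp
  choose U hU using fun j => exists_isometryEquiv (t1 j) (t2 j) (by
    rintro (_ | ⟨n, x⟩) (_ | ⟨m, y⟩) <;> simp only [Option.elim]
    · rw [inner_self_eq_norm_sq_to_K, inner_self_eq_norm_sq_to_K, h1, h1]
    · rw [inner_rep_right, inner_rep_right, z1, z2]
    · rw [inner_rep_left, inner_rep_left, z1, z2]
    · rw [inner_rep_left, inner_rep_left, rep_mul, rep_mul, (M.Φ j).F.hh,
        ((M.Φ j).F.hp n).one_sub.isSelfAdjoint.star_eq])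
  let u : M.J → unitary (R.K →L[ℂ] R.K) := fun j => Unitary.linearIsometryEquiv.symm (U j)
  have hu : ∀ j x, (u j : R.K →L[ℂ] R.K) x = U j x := fun j x => rfl
  let G : Set (R.K →L[ℂ] R.K) := Set.range R.π ∪ Set.range fun j => u j
  let B := (StarAlgebra.adjoin ℂ G).topologicalClosure
  have hB : IsClosed (B : Set (R.K →L[ℂ] R.K)) := StarSubalgebra.isClosed_topologicalClosure _
  have hG : G ⊆ B := fun x hx =>
    StarSubalgebra.le_topologicalClosure _ (StarAlgebra.subset_adjoin ℂ G hx)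
  refine ⟨B, inferInstance, ⟨⟨R.π.codRestrict B fun a => hG (Or.inl ⟨a, rfl⟩),
    fun j => ⟨u j, hG (Or.inr ⟨j, rfl⟩)⟩, ⟨R.K, B.subtype⟩, X, Subtype.val_injective,
    fun j => Subtype.ext (u j).2.1, fun j => Subtype.ext (u j).2.2, fun j n => Subtype.ext ?_,
    h1, h2, h3, t1, fun j => hU j none, fun C hC hC1 hC2 => ?_⟩⟩⟩
  · ext x; exact hU j (some (n, x))
  · have : B ≤ C.map B.subtype := by
      refine StarSubalgebra.topologicalClosure_minimal (StarAlgebra.adjoin_le ?_)
        (hB.isClosedEmbedding_subtypeVal.isClosedMap _ hC)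
      rintro _ (⟨a, rfl⟩ | ⟨j, rfl⟩)
      · exact ⟨_, hC1 a, rfl⟩
      · exact ⟨_, hC2 j, rfl⟩
    rw [eq_top_iff]
    intro b _
    obtain ⟨c, hc, hcb⟩ := this b.2
    exact (Subtype.ext hcb : c = b) ▸ hc

namespace Glue
variable {M : Fam S} {B : Type} [CStarAlgebra B] (g : Glue M B)

lemma conj (j : M.J) (n : ℕ) :
    g.v j * g.ι ((M.Φ j).F.p n) * star (g.v j) = g.ι ((M.Φ j).F.q n) := by
  have := congrArg g.ι ((M.Φ j).F.hh' n)
  rw [map_mul, map_star, ← g.hv3, star_mul, ← map_star,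
    ((M.Φ j).F.hp n).one_sub.isSelfAdjoint.star_eq, mul_assoc, ← mul_assoc (g.ι _), ← map_mul,
    ((M.Φ j).F.hp n).one_sub.isIdempotentElem.eq, map_sub, map_sub, map_one, sub_mul, one_mul,
    mul_sub, g.hv2, sub_right_inj, ← mul_assoc] at this
  exact this

variable {K : Type} [NormedAddCommGroup K] [InnerProductSpace ℂ K] [CompleteSpace K]

lemma embed (σ : B →⋆ₐ[ℂ] (K →L[ℂ] K)) {x : K} (hx : ‖x‖ = 1) (hx' : ∀ m, σ (g.ι (S.P m)) x = x) :
    ∃ W : g.R.K →ₗᵢ[ℂ] K, ∀ b z, W (g.R.π b z) = σ b (W z) := by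
  have hp : ∀ j n, σ (g.ι ((M.Φ j).F.p n)) x = x := fun j =>
    (M.Φ j).F.fix_iff (π := σ.comp g.ι) |>.2 hx'
  have h1 : ∀ j, ‖σ (g.v j) x‖ = 1 := fun j => by
    have := norm_rep_sq σ (g.v j) x
    rw [g.hv1, map_one, one_apply_eq_self, inner_self_eq_norm_sq_to_K, hx] at this
    exact (pow_eq_one_iff_of_nonneg (norm_nonneg _) two_ne_zero).1 (by simpa using this)
  have h2 : ∀ j n, (σ.comp g.ι) ((M.Φ j).F.q n) (σ (g.v j) x) = σ (g.v j) x := fun j n => by
    rw [StarAlgHom.comp_apply, ← g.conj, rep_mul, mul_assoc, g.hv1, mul_one, ← rep_mul, hp]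
  obtain ⟨W, hW⟩ := exists_isometry (y := fun p : M.J × A => σ (g.ι p.2) (σ (g.v p.1) x)) g.tot
    fun p q => (M.gram (σ := g.R.π.comp g.ι) g.hX g.fix p.1 q.1 p.2 q.2).trans
      (M.gram h1 h2 p.1 q.1 p.2 q.2).symm
  have hX : ∀ j, W (g.X j) = σ (g.v j) x := fun j => by simpa using hW (j, 1)
  have hA : ∀ a z, W (g.R.π (g.ι a) z) = σ (g.ι a) (W z) := fun a z => by
    have := g.tot.ext (S := W.toContinuousLinearMap ∘L g.R.π (g.ι a))
      (T := σ (g.ι a) ∘L W.toContinuousLinearMap) fun p => by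
        change W (g.R.π (g.ι a) (g.R.π _ _)) = σ (g.ι a) (W _)
        rw [rep_mul, ← map_mul, hW (p.1, a * p.2), hW p, map_mul g.ι, ← rep_mul]
    exact congrArg (fun F : g.R.K →L[ℂ] K => F z) this
  have ho : g.v M.o = 1 := g.inj ((g.tot' M.o).ext (by
    rintro (_ | ⟨n, z⟩) <;> simp only [Option.elim]
    · rw [g.hvX, map_one, one_apply_eq_self]
    · rw [rep_mul, rep_mul, g.hv3, M.ho', one_mul]))
  have hv : ∀ j z, W (g.R.π (g.v j) z) = σ (g.v j) (W z) := fun j z => by
    have := (g.tot' j).ext (S := W.toContinuousLinearMap ∘L g.R.π (g.v j))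
      (T := σ (g.v j) ∘L W.toContinuousLinearMap) (by
        rintro (_ | ⟨n, z⟩)
        · change W (g.R.π _ (g.X M.o)) = σ _ (W (g.X M.o))
          rw [g.hvX, hX, hX, ho, map_one, one_apply_eq_self]
        · change W (g.R.π _ (g.R.π _ z)) = σ _ (W (g.R.π _ z))
          rw [rep_mul, g.hv3, hA, hA, rep_mul, g.hv3])
    exact congrArg (fun F : g.R.K →L[ℂ] K => F z) this
  let C : StarSubalgebra ℂ B :=
    { carrier := {b | (∀ z, W (g.R.π b z) = σ b (W z)) ∧
        ∀ z, W (g.R.π (star b) z) = σ (star b) (W z)}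
      mul_mem' := fun ha hb => ⟨fun z => by rw [← rep_mul, ← rep_mul, ha.1, hb.1],
        fun z => by rw [star_mul, ← rep_mul, ← rep_mul, hb.2, ha.2]⟩
      add_mem' := fun ha hb => ⟨fun z => by simp [ha.1, hb.1], fun z => by
        rw [star_add, map_add, map_add, add_apply, add_apply, map_add, ha.2, hb.2]⟩
      algebraMap_mem' := fun c => by simp [Algebra.algebraMap_eq_smul_one]
      star_mem' := fun ha => ⟨ha.2, by rw [star_star]; exact ha.1⟩ }
  have hσ := rep_continuous σ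
  have hπ := rep_continuous g.R.π
  have := g.gen C (by
      change IsClosed ({b | ∀ z, W (g.R.π b z) = σ b (W z)} ∩
        {b | ∀ z, W (g.R.π (star b) z) = σ (star b) (W z)})
      refine IsClosed.inter ?_ ?_ <;> rw [Set.ofPred_forall] <;>
        exact isClosed_iInter fun z => isClosed_eq (by fun_prop) (by fun_prop))
    (fun a => ⟨hA a, by rw [← map_star]; exact hA _⟩)
    fun j => ⟨hv j, fun z => by
      have := congrArg (σ (star (g.v j))) (hv j (g.R.π (star (g.v j)) z))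
      rw [rep_mul, rep_mul, g.hv1, g.hv2, map_one, map_one, one_apply_eq_self,
        one_apply_eq_self] at this
      exact this.symm⟩
  exact ⟨W, fun b => (show b ∈ C from this ▸ StarSubalgebra.mem_top).1⟩

lemma exists_vec {σ : B →⋆ₐ[ℂ] (K →L[ℂ] K)} (hσ : Irr σ) :
    ∃ x : K, ‖x‖ = 1 ∧ ∀ m, σ (g.ι (S.P m)) x = x := by
  suffices ∃ x : K, x ≠ 0 ∧ ∀ m, σ (g.ι (S.P m)) x = x by
    obtain ⟨x, hx, hx'⟩ := this
    exact ⟨_, norm_normalize hx, fun m => by rw [map_smul, hx']⟩
  by_contra hn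
  have h0 : ∀ j x, (∀ n, σ (g.ι ((M.Φ j).F.p n)) x = x) → x = 0 := fun j x hx => by
    by_contra h
    exact hn ⟨x, h, (M.Φ j).F.fix_iff (π := σ.comp g.ι) |>.1 hx⟩
  have hirr : Irr (σ.comp g.ι) := ⟨hσ.1, fun V hV hinv => by
    have := hV.completeSpace_coe
    have hinv' : ∀ a, ∀ v ∈ Vᗮ, σ (g.ι a) v ∈ Vᗮ := fun a v hv => by
      rw [Submodule.mem_orthogonal] at hv ⊢
      intro u hu
      rw [inner_rep_right, ← map_star]; exact hv _ (hinv _ _ hu)
    have hE : ∀ a, Commute V.starProjection (σ (g.ι a)) := fun a => by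
      ext v
      apply Submodule.eq_starProjection_of_mem_orthogonal (hinv a _ (V.starProjection_apply_mem v))
      change σ (g.ι a) v - σ (g.ι a) _ ∈ _
      rw [← map_sub]
      exact hinv' a _ (V.sub_starProjection_mem_orthogonal v)
    have hσ' := rep_continuous σ
    have := g.gen ((StarSubalgebra.centralizer ℂ {V.starProjection}).comap σ)
      (by
        have : IsClosed (StarSubalgebra.centralizer ℂ {V.starProjection} : Set (K →L[ℂ] K)) := by
          rw [StarSubalgebra.coe_centralizer]; exact Set.isClosed_centralizer _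
        exact this.preimage hσ')
      (fun a => by
        simp [StarSubalgebra.mem_centralizer_iff, (isSelfAdjoint_starProjection V).star_eq,
          (hE a).eq])
      fun j => by
        have ht : Total fun p : ℕ × K => σ (g.ι (1 - (M.Φ j).F.p p.1)) p.2 := fun z hz =>
          h0 j z fun n => by
            have := hz (n, σ (g.ι (1 - (M.Φ j).F.p n)) z)
            rw [inner_rep_left, ← map_star, ((M.Φ j).F.hp n).one_sub.isSelfAdjoint.star_eq,
              inner_self_eq_zero] at this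
            exact (sub_eq_zero.1 (by simpa using this)).symm
        have : V.starProjection * σ (g.v j) = σ (g.v j) * V.starProjection := ht.ext fun p => by
          change (V.starProjection * σ (g.v j) * σ _) p.2 = (σ (g.v j) * V.starProjection * σ _) p.2
          rw [mul_assoc, mul_assoc, (hE _).eq, ← mul_assoc (σ _), ← map_mul, g.hv3, (hE _).eq]
        simp [StarSubalgebra.mem_centralizer_iff, (isSelfAdjoint_starProjection V).star_eq, this]
    refine hσ.2 V hV fun b v hv => ?_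
    have hb : b ∈ (StarSubalgebra.centralizer ℂ {V.starProjection}).comap σ :=
      this ▸ StarSubalgebra.mem_top
    have : V.starProjection * σ b = σ b * V.starProjection :=
      ((StarSubalgebra.mem_centralizer_iff ℂ).1 hb _ rfl).1
    rw [← Submodule.starProjection_eq_self_iff] at hv ⊢
    change (V.starProjection * σ b) v = _
    rw [this]
    change σ b (V.starProjection v) = _
    rw [hv]⟩
  obtain ⟨j, z, hz, hz'⟩ := M.cover ⟨K, σ.comp g.ι⟩ hirr
  change K at z
  change ∀ n, σ (g.ι ((M.Φ j).F.q n)) z = z at hz'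
  apply hz
  have := h0 j (σ (star (g.v j)) z) fun n => by
    conv_rhs => rw [← hz' n, ← g.conj, rep_mul, ← mul_assoc, ← mul_assoc, g.hv1, one_mul]
    rw [rep_mul]
  have := congrArg (σ (g.v j)) this
  rwa [rep_mul, g.hv2, map_one, map_zero] at this

lemma equiv {σ : B →⋆ₐ[ℂ] (K →L[ℂ] K)} (hσ : Irr σ) :
    ∃ W : g.R.K ≃ₗᵢ[ℂ] K, ∀ b z, W (g.R.π b z) = σ b (W z) := by
  obtain ⟨x, hx, hx'⟩ := g.exists_vec hσ
  obtain ⟨W, hW⟩ := g.embed σ hx hx'
  rcases hσ.2 (LinearMap.range W.toLinearMap) W.isometry.isClosedEmbedding.isClosed_range (by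
    rintro b _ ⟨z, rfl⟩
    exact ⟨_, hW b z⟩) with h | h
  · have : W (g.X M.o) ∈ LinearMap.range W.toLinearMap := ⟨_, rfl⟩
    rw [h, Submodule.mem_bot, ← norm_eq_zero, W.norm_map, g.hX] at this
    simp at this
  · exact ⟨LinearIsometryEquiv.ofSurjective W (LinearMap.range_eq_top.1 h), hW⟩

include g in
lemma simple (I : TwoSidedIdeal B) : I = ⊥ ∨ I = ⊤ := by
  rw [or_iff_not_imp_right]
  intro hI
  obtain ⟨f, hf, hfI⟩ := exists_isSt_ideal I hI
  have : ∀ n, ∃ ω : B →ₗ[ℂ] ℂ, IsSt ω ∧ (∀ b ∈ I, ω b = 0) ∧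
      ∀ k ≤ n, ω (g.ι (S.P k)) = 1 := fun n => by
    obtain ⟨i, hi⟩ : ∃ i, f (g.ι (S.e n i i)) ≠ 0 := by
      by_contra hn
      push Not at hn
      have := hf.1
      rw [← map_one g.ι, ← S.sum_e n] at this
      simp [hn] at this
    set x := g.ι (S.e n 0 i) with hx
    have hxx : star x * x = g.ι (S.e n i i) := by
      rw [hx, ← map_star, ← map_mul, S.star_e, S.e_mul]; simp
    refine ⟨(f (star x * x))⁻¹ • f ∘ₗ LinearMap.mulLeft ℂ (star x) ∘ₗ LinearMap.mulRight ℂ x,
      ⟨by simp [hxx, hi], fun b => ?_⟩, fun b hb => ?_, fun k hk => ?_⟩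
    · have := hf.2 (b * x)
      rw [star_mul, mul_assoc, ← mul_assoc (star b)] at this
      exact mul_nonneg (inv_nonneg.2 (hf.2 x)) this
    · simp [hfI _ (I.mul_mem_left _ _ (I.mul_mem_right _ x hb))]
    · have : g.ι (S.P k) * x = x := by
        have : S.e n 0 i = S.P n * S.e n 0 i := by simp [Sys.P, S.e_mul]
        rw [hx, ← map_mul, this, ← mul_assoc, S.P_anti hk]
      simp [this, hxx, hi]
  choose ω h1 h2 h3 using this
  obtain ⟨T, hT, hT'⟩ := exists_ultralimit ω h1
  have t2 : ∀ b ∈ I, T b = 0 := fun b hb => tendsto_nhds_unique (hT' b) (by simp [h2 _ b hb])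
  have t3 : ∀ k, T (g.ι (S.P k)) = 1 := fun k => tendsto_nhds_unique (hT' _)
    (tendsto_const_nhds.congr' (by
      filter_upwards [Nat.hyperfilter_le_atTop (eventually_ge_atTop k)] with n hn
      exact (h3 n k hn).symm))
  obtain ⟨R, z, hz, hz', ht⟩ := hT.gns
  obtain ⟨W, hW⟩ := g.embed R.π hz fun m => by
    have := norm_rep_sq R.π (g.ι (1 - S.P m)) z
    rw [← hz', ← map_star, ← map_mul, (S.P_proj m).one_sub.isSelfAdjoint.star_eq,
      (S.P_proj m).one_sub.isIdempotentElem.eq] at this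
    exact (sub_eq_zero.1 (by simpa [t3, hT.1] using this)).symm
  rw [eq_bot_iff]
  intro b hb
  have : R.π b = 0 := ht.ext fun c => by
    have := norm_rep_sq R.π (b * c) z
    rw [← hz', t2 _ (I.mul_mem_left _ _ (I.mul_mem_right _ _ hb))] at this
    simpa using this
  refine (TwoSidedIdeal.mem_bot _).2 (g.inj ?_)
  ext w
  exact W.injective (by simpa [this] using hW b w)

include g in
lemma trace : ∃ T : B →ₗ[ℂ] ℂ, IsSt T ∧ ∀ a b, T (a * b) = T (b * a) := by
  let φ : B →ₗ[ℂ] ℂ :=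
    { toFun := fun b => ⟪g.X M.o, g.R.π b (g.X M.o)⟫_ℂ
      map_add' := by simp
      map_smul' := by simp }
  have hφ : ∀ b, φ b = ⟪g.X M.o, g.R.π b (g.X M.o)⟫_ℂ := fun b => rfl
  obtain ⟨T, hT, h⟩ := hypertrace S g.ι (φ := φ)
    ⟨by simp [hφ, g.hX], fun b => isSt_vec _ _ _⟩ fun n => by
      have := g.fix M.o n
      rw [M.ho] at this
      simp [hφ, this, g.hX]
  let C : StarSubalgebra ℂ B :=
    { carrier := {x | ∀ y, T (x * y) = T (y * x)}
      mul_mem' := fun ha hb y => by rw [mul_assoc, ha, mul_assoc, hb, mul_assoc]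
      add_mem' := fun ha hb y => by simp [add_mul, mul_add, ha y, hb y]
      algebraMap_mem' := fun c y => by rw [Algebra.commutes]
      star_mem' := fun {x} ha y => by
        have := congrArg star (ha (star y))
        rw [← hT.map_star, ← hT.map_star, star_mul, star_mul, star_star] at this
        exact this.symm }
  have hc := hT.continuous
  have := g.gen C (by
      change IsClosed {x | ∀ y, T (x * y) = T (y * x)}
      rw [Set.ofPred_forall]
      exact isClosed_iInter fun z => isClosed_eq (by fun_prop) (by fun_prop)) h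
    fun j y => by
      rw [← sub_eq_zero, ← norm_le_zero_iff]
      have key : ∀ m : ℕ, ‖T (g.v j * y) - T (y * g.v j)‖ ≤ 2 * ‖y‖ * √((1 / 2) ^ m) := fun m => by
        obtain ⟨n, hn⟩ := (M.Φ j).F.up m
        set p := (M.Φ j).F.p n
        have hp := (M.Φ j).F.hp n
        have e1 : g.v j = g.ι ((M.Φ j).F.h n) + g.v j * g.ι p := by
          rw [← g.hv3, ← mul_add, ← map_add, sub_add_cancel, map_one, mul_one]
        have e2 : T (g.v j * y) - T (y * g.v j) = T (g.v j * g.ι p * y) - T (y * (g.v j * g.ι p)) := by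
          conv_lhs => rw [e1, add_mul, mul_add, map_add, map_add, h]
          ring
        have e3 : (T (g.ι p)).re ≤ (1 / 2) ^ m := by
          have := hT.norm_conj_le (g.ι p) (g.ι (S.P m))
          rw [← map_star, ← map_mul, ← map_mul, ← map_mul, (S.P_proj m).isSelfAdjoint.star_eq,
            (S.P_proj m).isIdempotentElem.eq, hn, proj_comm (S.P_proj m) hp hn] at this
          have e := S.tr_P (τ := T ∘ₗ g.ι.toAlgHom.toLinearMap) (by simpa using hT.1)
            (fun a b => by simpa using h a (g.ι b)) m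
          change (T (g.ι _)).re = _ at e
          rw [e] at this
          exact (Complex.re_le_norm _).trans (this.trans (mul_le_of_le_one_left (by positivity)
            (hp.map g.ι).norm_le))
        have e4 : T (g.v j * g.ι p * star (g.v j * g.ι p)) = T (g.ι p) := by
          rw [star_mul, ← map_star, hp.isSelfAdjoint.star_eq, ← mul_assoc, mul_assoc (g.v j) (g.ι p),
            ← map_mul, hp.isIdempotentElem.eq, g.conj]
          have := h ((M.Φ j).F.h n) (g.ι (star ((M.Φ j).F.h n)))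
          rw [← map_mul, ← map_mul, (M.Φ j).F.hh, (M.Φ j).F.hh', hp.one_sub.isIdempotentElem.eq] at this
          simpa using this
        have e5 : T (star (g.v j * g.ι p) * (g.v j * g.ι p)) = T (g.ι p) := by
          rw [star_mul, mul_assoc, ← mul_assoc (star (g.v j)), g.hv1, one_mul, ← map_star, ← map_mul,
            hp.isSelfAdjoint.star_eq, hp.isIdempotentElem.eq]
        have f1 := hT.norm_mul_le' (g.v j * g.ι p) y
        have f2 := hT.norm_mul_le y (g.v j * g.ι p)
        rw [e4] at f1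
        rw [e5] at f2
        have f3 := mul_le_mul_of_nonneg_left (Real.sqrt_le_sqrt e3) (norm_nonneg y)
        rw [e2]
        linarith [norm_sub_le (T (g.v j * g.ι p * y)) (T (y * (g.v j * g.ι p)))]
      refine ge_of_tendsto' (f := fun m : ℕ => 2 * ‖y‖ * √((1 / 2) ^ m)) (x := atTop) ?_ key
      simpa using ((tendsto_pow_atTop_nhds_zero_of_lt_one (r := (1 / 2 : ℝ)) (by norm_num)
        (by norm_num)).sqrt).const_mul (2 * ‖y‖)
  exact ⟨T, hT, fun a => (show a ∈ C from this ▸ StarSubalgebra.mem_top)⟩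

end Glue

end Crest.Agent.NAI
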