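import Mathlib

/-! Hilbert space lemmas: total families, Gram isometries, Schur's lemma, density. -/

set_option autoImplicit false
open Filter Topology
open scoped InnerProductSpace ComplexOrder

namespace Crest.Agent.NAI

section total
variable {H K : Type*} [NormedAddCommGroup H] [InnerProductSpace ℂ H] [CompleteSpace H]
  [NormedAddCommGroup K] [InnerProductSpace ℂ K] [CompleteSpace K] {ι : Type*}

/-- A family with trivial orthogonal complement. -/
def Total (x : ι → H) : Prop := ∀ z : H, (∀ i, ⟪x i, z⟫_ℂ = 0) → z = 0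

lemma Total.denseRange {x : ι → H} (h : Total x) :
    DenseRange (Finsupp.linearCombination ℂ x) := by
  have : (LinearMap.range (Finsupp.linearCombination ℂ x)).topologicalClosure = ⊤ := by
    rw [Submodule.topologicalClosure_eq_top_iff, Submodule.eq_bot_iff]
    intro z hz
    refine h z fun i => ?_
    exact (Submodule.mem_orthogonal _ _).1 hz _ ⟨Finsupp.single i 1, by simp⟩
  have h2 := Submodule.dense_iff_topologicalClosure_eq_top.2 this
  exact h2

lemma Total.ext {x : ι → H} (h : Total x) {E : Type*} [NormedAddCommGroup E] [NormedSpace ℂ E]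
    {S T : H →L[ℂ] E} (hST : ∀ i, S (x i) = T (x i)) : S = T := by
  ext z
  refine h.denseRange.induction_on z (isClosed_eq S.continuous T.continuous) fun c => ?_
  simp [Finsupp.linearCombination_apply, Finsupp.sum, hST]

lemma Total.closed_eq_top {x : ι → H} (h : Total x) (V : Submodule ℂ H) (hV : IsClosed (V : Set H))
    (hx : ∀ i, x i ∈ V) : V = ⊤ := by
  rw [eq_top_iff]
  intro z _
  refine h.denseRange.induction_on z hV fun c => ?_
  simp only [Finsupp.linearCombination_apply, Finsupp.sum]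
  exact V.sum_mem fun i _ => V.smul_mem _ (hx i)

omit [CompleteSpace H] [CompleteSpace K] in
lemma norm_lc_eq {x : ι → H} {y : ι → K} (hxy : ∀ i j, ⟪x i, x j⟫_ℂ = ⟪y i, y j⟫_ℂ)
    (c : ι →₀ ℂ) : ‖Finsupp.linearCombination ℂ y c‖ = ‖Finsupp.linearCombination ℂ x c‖ := by
  rw [norm_eq_sqrt_re_inner (𝕜 := ℂ), norm_eq_sqrt_re_inner (𝕜 := ℂ)]
  simp only [Finsupp.linearCombination_apply, Finsupp.sum, sum_inner, inner_sum, inner_smul_left,
    inner_smul_right, hxy]

lemma exists_isometry {x : ι → H} {y : ι → K} (hx : Total x)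
    (hxy : ∀ i j, ⟪x i, x j⟫_ℂ = ⟪y i, y j⟫_ℂ) : ∃ W : H →ₗᵢ[ℂ] K, ∀ i, W (x i) = y i := by
  have hn : ∃ C : ℝ, ∀ c, ‖Finsupp.linearCombination ℂ y c‖ ≤
      C * ‖Finsupp.linearCombination ℂ x c‖ := ⟨1, fun c => by rw [norm_lc_eq hxy, one_mul]⟩
  let W := (Finsupp.linearCombination ℂ y).extendOfNorm (Finsupp.linearCombination ℂ x)
  have hW : ∀ c, W (Finsupp.linearCombination ℂ x c) = Finsupp.linearCombination ℂ y c :=
    LinearMap.extendOfNorm_eq hx.denseRange hn
  refine ⟨⟨W.toLinearMap, fun z => ?_⟩, fun i => by simpa using hW (Finsupp.single i 1)⟩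
  refine hx.denseRange.induction_on z (isClosed_eq (by fun_prop) continuous_norm) fun c => ?_
  simp only [ContinuousLinearMap.coe_coe, hW, norm_lc_eq hxy]

lemma exists_isometryEquiv {x : ι → H} {y : ι → K} (hx : Total x) (hy : Total y)
    (hxy : ∀ i j, ⟪x i, x j⟫_ℂ = ⟪y i, y j⟫_ℂ) : ∃ W : H ≃ₗᵢ[ℂ] K, ∀ i, W (x i) = y i := by
  obtain ⟨W, hW⟩ := exists_isometry hx hxy
  have : LinearMap.range W.toLinearMap = ⊤ :=
    hy.closed_eq_top _ W.isometry.isClosedEmbedding.isClosed_range fun i => ⟨x i, hW i⟩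
  exact ⟨LinearIsometryEquiv.ofSurjective W (LinearMap.range_eq_top.1 this), hW⟩

end total

section irr
variable {A : Type*} [CStarAlgebra A]
  {K : Type*} [NormedAddCommGroup K] [InnerProductSpace ℂ K] [CompleteSpace K]

lemma inner_rep_left (π : A →⋆ₐ[ℂ] (K →L[ℂ] K)) (a : A) (x y : K) :
    ⟪π a x, y⟫_ℂ = ⟪x, π (star a) y⟫_ℂ := by
  rw [map_star, ContinuousLinearMap.star_eq_adjoint, ContinuousLinearMap.adjoint_inner_right]

lemma inner_rep_right (π : A →⋆ₐ[ℂ] (K →L[ℂ] K)) (a : A) (x y : K) :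
    ⟪x, π a y⟫_ℂ = ⟪π (star a) x, y⟫_ℂ := by
  rw [inner_rep_left, star_star]

lemma rep_mul (π : A →⋆ₐ[ℂ] (K →L[ℂ] K)) (a b : A) (x : K) : π a (π b x) = π (a * b) x := by
  rw [map_mul]; rfl

lemma norm_rep_le (π : A →⋆ₐ[ℂ] (K →L[ℂ] K)) (a : A) (x : K) : ‖π a x‖ ≤ ‖a‖ * ‖x‖ :=
  ((π a).le_opNorm x).trans (by gcongr; exact NonUnitalStarAlgHom.norm_apply_le π a)

lemma rep_continuous {B : Type*} [CStarAlgebra B] (π : A →⋆ₐ[ℂ] B) : Continuous π :=
  (AddMonoidHomClass.lipschitz_of_bound π 1 fun a => by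
    simpa using NonUnitalStarAlgHom.norm_apply_le π a).continuous

lemma norm_rep_sq (π : A →⋆ₐ[ℂ] (K →L[ℂ] K)) (a : A) (x : K) :
    ‖π a x‖ ^ 2 = (⟪x, π (star a * a) x⟫_ℂ).re := by
  rw [← rep_mul, ← inner_rep_left, inner_self_eq_norm_sq_to_K]; norm_cast

/-- Irreducibility: a nonzero space without proper closed invariant subspaces. -/
def Irr (π : A →⋆ₐ[ℂ] (K →L[ℂ] K)) : Prop :=
  (∃ x : K, x ≠ 0) ∧ ∀ V : Submodule ℂ K, IsClosed (V : Set K) →
    (∀ a : A, ∀ v ∈ V, π a v ∈ V) → V = ⊥ ∨ V = ⊤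

lemma Irr.total {π : A →⋆ₐ[ℂ] (K →L[ℂ] K)} (h : Irr π) {x : K} (hx : x ≠ 0) :
    Total fun a => π a x := by
  intro z hz
  let V : Submodule ℂ K := ⨅ a, (ℂ ∙ π a x)ᗮ
  have hV : ∀ v, v ∈ V ↔ ∀ a, ⟪π a x, v⟫_ℂ = 0 := fun v => by
    simp [V, Submodule.mem_orthogonal_singleton_iff_inner_right]
  have hc : IsClosed (V : Set K) := by
    simp only [V, Submodule.coe_iInf]
    exact isClosed_iInter fun a => Submodule.isClosed_orthogonal _
  rcases h.2 V hc (fun a v hv => by
    rw [hV] at hv ⊢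
    intro b
    rw [inner_rep_right, rep_mul]; exact hv _) with h0 | h0
  · have : z ∈ V := (hV z).2 hz
    rwa [h0, Submodule.mem_bot] at this
  · have : x ∈ V := h0 ▸ Submodule.mem_top
    have := (hV x).1 this 1
    simp only [map_one, one_apply_eq_self, inner_self_eq_zero] at this
    exact absurd this hx

lemma Irr.schur_sa {π : A →⋆ₐ[ℂ] (K →L[ℂ] K)} (h : Irr π) {T : K →L[ℂ] K} (hT : IsSelfAdjoint T)
    (hc : ∀ a, Commute T (π a)) : ∃ c : ℂ, T = algebraMap ℂ _ c := by
  obtain ⟨x, hx⟩ := h.1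
  have : Nontrivial K := ⟨x, 0, hx⟩
  obtain ⟨s, hs⟩ := ContinuousFunctionalCalculus.spectrum_nonempty (R := ℝ) T hT
  refine ⟨(s : ℂ), ?_⟩
  by_cases hsub : spectrum ℝ T ⊆ {s}
  · have := CFC.eq_algebraMap_of_spectrum_subset_singleton T s hsub hT
    rw [this]; rfl
  exfalso
  obtain ⟨t, ht, hts⟩ := Set.not_subset.1 hsub
  have hts' : t ≠ s := hts
  set m := (s + t) / 2 with hm
  let f : ℝ → ℝ := fun r => max ((r - m) * (t - s)) 0
  let g : ℝ → ℝ := fun r => max ((r - m) * (s - t)) 0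
  have hf : Continuous f := by fun_prop
  have hg : Continuous g := by fun_prop
  have hfg : cfc f T * cfc g T = 0 := by
    rw [← cfc_mul _ _ _ hf.continuousOn hg.continuousOn, ← cfc_zero ℝ T]
    refine cfc_congr fun r _ => ?_
    simp only [f, g, Pi.zero_apply]
    rcases le_total ((r - m) * (t - s)) 0 with h1 | h1
    · rw [max_eq_right h1, zero_mul]
    · rw [max_eq_right (b := (0 : ℝ)) (a := (r - m) * (s - t)) (by nlinarith), mul_zero]
  have hne : ∀ (k : ℝ → ℝ), Continuous k → ∀ r ∈ spectrum ℝ T, k r ≠ 0 → cfc k T ≠ 0 := by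
    intro k hk r hr hkr h0
    have : k r ∈ spectrum ℝ (cfc k T) := by
      rw [cfc_map_spectrum k T hT hk.continuousOn]; exact ⟨r, hr, rfl⟩
    rw [h0, spectrum.zero_eq] at this
    exact hkr this
  have hd : 0 < (t - s) ^ 2 := by have := sub_ne_zero.2 hts'; positivity
  have hf0 := hne f hf t ht (by
    have : 0 < (t - m) * (t - s) := by rw [hm]; nlinarith
    simp only [f]; rw [max_eq_left this.le]; exact this.ne')
  have hg0 := hne g hg s hs (by
    have : 0 < (s - m) * (s - t) := by rw [hm]; nlinarith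
    simp only [g]; rw [max_eq_left this.le]; exact this.ne')
  rcases h.2 (cfc f T).ker (cfc f T).isClosed_ker (fun a v hv => by
    have := ((hc a).cfc_real f).eq
    rw [LinearMap.mem_ker] at hv ⊢
    change (cfc f T * π a) v = 0
    rw [this]
    change π a (cfc f T v) = 0
    rw [show cfc f T v = 0 from hv, map_zero]) with h0 | h0
  · apply hg0
    ext v
    have : cfc g T v ∈ (cfc f T).ker := by
      change (cfc f T * cfc g T) v = 0
      rw [hfg]; rfl
    rwa [h0, Submodule.mem_bot] at this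
  · apply hf0
    ext v
    have : v ∈ (cfc f T).ker := h0 ▸ Submodule.mem_top
    exact this

lemma Irr.schur {π : A →⋆ₐ[ℂ] (K →L[ℂ] K)} (h : Irr π) {T : K →L[ℂ] K}
    (hc : ∀ a, Commute T (π a)) : ∃ c : ℂ, T = algebraMap ℂ _ c := by
  have hc' : ∀ a, Commute (star T) (π a) := fun a => by
    have := (hc (star a)).star_star
    rwa [← map_star, star_star] at this
  obtain ⟨c, h1⟩ := h.schur_sa (T := T + star T) (IsSelfAdjoint.add_star_self T)
    fun a => (hc a).add_left (hc' a)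
  obtain ⟨d, h2⟩ := h.schur_sa (T := Complex.I • (T - star T)) (by
      rw [IsSelfAdjoint, star_smul, star_sub, star_star, Complex.star_def, Complex.conj_I,
        neg_smul, ← smul_neg, neg_sub])
    fun a => ((hc a).sub_left (hc' a)).smul_left _
  refine ⟨(c - Complex.I * d) / 2, ?_⟩
  have : T = (2 : ℂ)⁻¹ • ((T + star T) - Complex.I • (Complex.I • (T - star T))) := by
    rw [smul_smul, Complex.I_mul_I]; module
  rw [this, h1, h2]
  simp only [Algebra.algebraMap_eq_smul_one]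
  module

lemma Irr.parallel {π : A →⋆ₐ[ℂ] (K →L[ℂ] K)} (h : Irr π) {x α β : K} (hx : x ≠ 0)
    (hz : ∀ a, ⟪π a x, α⟫_ℂ + ⟪π a β, x⟫_ℂ = 0) : ∃ c : ℂ, α = c • x := by
  let E := WithLp 2 (K × K)
  let d : A → E →L[ℂ] E := fun a => (WithLp.prodContinuousLinearEquiv 2 ℂ K K).symm.toContinuousLinearMap
    ∘L ((π a).prodMap (π a)) ∘L (WithLp.prodContinuousLinearEquiv 2 ℂ K K).toContinuousLinearMap
  have hd : ∀ a (u v : K), d a (WithLp.toLp 2 (u, v)) = WithLp.toLp 2 (π a u, π a v) :=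
    fun a u v => rfl
  have hds : ∀ a (u v : E), ⟪d a u, v⟫_ℂ = ⟪u, d (star a) v⟫_ℂ := fun a u v => by
    change ⟪WithLp.toLp 2 (π a u.fst, π a u.snd), v⟫_ℂ =
      ⟪u, WithLp.toLp 2 (π (star a) v.fst, π (star a) v.snd)⟫_ℂ
    simp only [WithLp.prod_inner_apply, inner_rep_left]
    rfl
  have hdm : ∀ a b (u : E), d a (d b u) = d (a * b) u := fun a b u => by
    change WithLp.toLp 2 (π a (π b u.fst), π a (π b u.snd)) =
      WithLp.toLp 2 (π (a * b) u.fst, π (a * b) u.snd)
    rw [rep_mul, rep_mul]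
  let w : E := WithLp.toLp 2 (x, β)
  let V : Submodule ℂ E := ⨅ a, (ℂ ∙ d a w)ᗮ
  have hV : ∀ v, v ∈ V ↔ ∀ a, ⟪d a w, v⟫_ℂ = 0 := fun v => by
    simp [V, Submodule.mem_orthogonal_singleton_iff_inner_right]
  have hc : IsClosed (V : Set E) := by
    simp only [V, Submodule.coe_iInf]
    exact isClosed_iInter fun a => Submodule.isClosed_orthogonal _
  have := hc.completeSpace_coe
  have hinv : ∀ a, ∀ v ∈ V, d a v ∈ V := fun a v hv => by
    rw [hV] at hv ⊢
    intro b
    rw [← inner_conj_symm, hds, hdm, inner_conj_symm]; exact hv _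
  have hinv' : ∀ a, ∀ v ∈ Vᗮ, d a v ∈ Vᗮ := fun a v hv => by
    rw [Submodule.mem_orthogonal'] at hv ⊢
    intro u hu
    rw [hds]; exact hv _ (hinv _ _ hu)
  have hP : ∀ a v, V.starProjection (d a v) = d a (V.starProjection v) := fun a v => by
    apply Submodule.eq_starProjection_of_mem_orthogonal (hinv a _ (V.starProjection_apply_mem v))
    rw [← map_sub]
    exact hinv' a _ (V.sub_starProjection_mem_orthogonal v)
  let e := WithLp.prodContinuousLinearEquiv 2 ℂ K K
  have key : ∀ (S : K →L[ℂ] K × K) (T : K × K →L[ℂ] K),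
      (∀ a u, e.symm (S (π a u)) = d a (e.symm (S u))) → (∀ a u, T (e (d a u)) = π a (T (e u))) →
      ∃ c : ℂ, ∀ u, T (e (V.starProjection (e.symm (S u)))) = c • u := fun S T hS hT => by
    obtain ⟨c, hc⟩ := h.schur (T := T ∘L e.toContinuousLinearMap ∘L V.starProjection ∘L
      e.symm.toContinuousLinearMap ∘L S) fun a => by
        ext u
        change T (e (V.starProjection (e.symm (S (π a u))))) =
          π a (T (e (V.starProjection (e.symm (S u)))))
        rw [hS, hP, hT]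
    refine ⟨c, fun u => ?_⟩
    have := congrArg (fun F : K →L[ℂ] K => F u) hc
    simpa [Algebra.algebraMap_eq_smul_one] using this
  have hl : ∀ a u, e.symm (ContinuousLinearMap.inl ℂ K K (π a u)) =
      d a (e.symm (ContinuousLinearMap.inl ℂ K K u)) := fun a u => by
    change WithLp.toLp 2 (π a u, 0) = WithLp.toLp 2 (π a u, π a 0)
    rw [map_zero]
  have hr : ∀ a u, e.symm (ContinuousLinearMap.inr ℂ K K (π a u)) =
      d a (e.symm (ContinuousLinearMap.inr ℂ K K u)) := fun a u => by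
    change WithLp.toLp 2 (0, π a u) = WithLp.toLp 2 (π a 0, π a u)
    rw [map_zero]
  obtain ⟨c11, h11⟩ := key (.inl ℂ K K) (.fst ℂ K K) hl fun a u => rfl
  obtain ⟨c12, h12⟩ := key (.inr ℂ K K) (.fst ℂ K K) hr fun a u => rfl
  obtain ⟨c21, h21⟩ := key (.inl ℂ K K) (.snd ℂ K K) hl fun a u => rfl
  obtain ⟨c22, h22⟩ := key (.inr ℂ K K) (.snd ℂ K K) hr fun a u => rfl
  have hsplit : ∀ u v : K, (e (V.starProjection (WithLp.toLp 2 (u, v)))).1 = c11 • u + c12 • v ∧
      (e (V.starProjection (WithLp.toLp 2 (u, v)))).2 = c21 • u + c22 • v := fun u v => by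
    have : (WithLp.toLp 2 (u, v) : E) = e.symm (ContinuousLinearMap.inl ℂ K K u) +
        e.symm (ContinuousLinearMap.inr ℂ K K v) := by
      rw [← map_add]; simp [e]
    rw [this, map_add, map_add, ← h11, ← h12, ← h21, ← h22]
    exact ⟨rfl, rfl⟩
  have h1 : V.starProjection (WithLp.toLp 2 (α, x)) = WithLp.toLp 2 (α, x) := by
    rw [Submodule.starProjection_eq_self_iff, hV]
    intro a
    rw [hd, WithLp.prod_inner_apply]; exact hz a
  have h2 : V.starProjection w = 0 := by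
    rw [Submodule.starProjection_apply_eq_zero_iff, Submodule.mem_orthogonal']
    intro u hu
    have := (hV u).1 hu 1
    rwa [hd, map_one] at this
  obtain ⟨a1, a2⟩ := hsplit α x
  obtain ⟨b1, b2⟩ := hsplit x β
  rw [h1] at a1 a2
  rw [show (WithLp.toLp 2 (x, β) : E) = w from rfl, h2] at b1 b2
  change α = _ at a1
  change x = _ at a2
  change (0 : K) = _ at b1
  change (0 : K) = _ at b2
  by_cases h21 : c21 = 0
  · by_cases h11 : c11 = 1
    · rw [h11, one_smul] at a1 b1
      have : c12 • x = 0 := by rw [← add_right_inj α, ← a1, add_zero]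
      rw [(smul_eq_zero.1 this).resolve_right hx, zero_smul, add_zero] at b1
      exact absurd b1.symm hx
    · refine ⟨(1 - c11)⁻¹ * c12, ?_⟩
      have h3 : (1 - c11) • α = c12 • x := by rw [sub_smul, one_smul, sub_eq_iff_eq_add']; exact a1
      rw [mul_smul, ← h3, smul_smul, inv_mul_cancel₀ (sub_ne_zero.2 (Ne.symm h11)), one_smul]
  · refine ⟨c21⁻¹ * (1 - c22), ?_⟩
    have h3 : c21 • α = (1 - c22) • x := by rw [sub_smul, one_smul, eq_sub_iff_add_eq]; exact a2.symm
    rw [mul_smul, ← h3, smul_smul, inv_mul_cancel₀ h21, one_smul]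

/-- The density statement behind excision. -/
lemma Irr.density {π : A →⋆ₐ[ℂ] (K →L[ℂ] K)} (h : Irr π) {D : StarSubalgebra ℂ A}
    (hD : Dense (D : Set A)) {x z : K} (hx : x ≠ 0) (hz : ⟪x, z⟫_ℂ = 0) {δ : ℝ} (hδ : 0 < δ) :
    ∃ y ∈ D, ‖π y x - z‖ < δ ∧ ‖π (star y) x‖ < δ := by
  let Z : Submodule ℝ (K × K) :=
    { carrier := {u | ∃ y ∈ D, u = (π y x, π (star y) x)}
      add_mem' := by
        rintro _ _ ⟨y, hy, rfl⟩ ⟨y', hy', rfl⟩
        exact ⟨y + y', add_mem hy hy', by simp⟩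
      zero_mem' := ⟨0, zero_mem _, by simp; rfl⟩
      smul_mem' := by
        rintro c _ ⟨y, hy, rfl⟩
        refine ⟨(c : ℂ) • y, D.smul_mem hy _, ?_⟩
        rw [star_smul, map_smul, map_smul]; simp }
  have hmem : (z, (0 : K)) ∈ closure (Z : Set (K × K)) := by
    by_contra hn
    obtain ⟨f, u, h1, h2⟩ := RCLike.geometric_hahn_banach_point_closed (𝕜 := ℂ)
      Z.convex.closure isClosed_closure hn
    have h0 : u < 0 := by simpa using h2 0 (subset_closure Z.zero_mem)
    have h3 : ∀ b ∈ Z, (f b).re = 0 := fun b hb => by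
      by_contra hne
      have := h2 ((u / (f b).re) • b) (subset_closure (Z.smul_mem _ hb))
      rw [← Complex.coe_smul, map_smul] at this
      simp [div_mul_cancel₀ _ hne] at this
    let α := (InnerProductSpace.toDual ℂ K).symm (f ∘L ContinuousLinearMap.inl ℂ K K)
    let β := (InnerProductSpace.toDual ℂ K).symm (f ∘L ContinuousLinearMap.inr ℂ K K)
    have hf : ∀ a b, f (a, b) = ⟪α, a⟫_ℂ + ⟪β, b⟫_ℂ := fun a b => by
      simp only [α, β, InnerProductSpace.toDual_symm_apply]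
      rw [ContinuousLinearMap.comp_apply, ContinuousLinearMap.comp_apply, ← map_add]
      simp
    have h4 : ∀ y ∈ D, ⟪π y x, α⟫_ℂ + ⟪π y β, x⟫_ℂ = 0 := fun y hy => by
      have e1 := h3 _ ⟨y, hy, rfl⟩
      have e2 := h3 _ ⟨Complex.I • y, D.smul_mem hy _, rfl⟩
      rw [hf, ← inner_rep_left, ← inner_conj_symm α] at e1 e2
      simp only [map_smul, smul_apply, inner_smul_left] at e2
      generalize ⟪π y x, α⟫_ℂ = s at e1 e2 ⊢
      apply Complex.ext
      · simpa using e1
      · simp at e2 ⊢; linarith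
    have h5 : ∀ y, ⟪π y x, α⟫_ℂ + ⟪π y β, x⟫_ℂ = 0 := fun y => by
      have hπ : Continuous π := rep_continuous π
      exact hD.induction h4 (isClosed_eq (by fun_prop) continuous_const) y
    obtain ⟨c, hc⟩ := h.parallel hx h5
    rw [hf, hc, inner_smul_left, hz] at h1
    simp at h1; linarith
  obtain ⟨_, ⟨y, hy, rfl⟩, h1⟩ := Metric.mem_closure_iff.1 hmem δ hδ
  rw [Prod.dist_eq, max_lt_iff, dist_comm, dist_eq_norm, dist_comm, dist_zero_right] at h1
  exact ⟨y, hy, h1⟩

end irr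

end Crest.Agent.NAI
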