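import Crest.Agent.NAI.Hilb

/-! Comparison of projections in a matrix algebra. -/

set_option autoImplicit false
open scoped InnerProductSpace
open Module

namespace Crest.Agent.NAI

lemma cmp_clm {E : Type*} [NormedAddCommGroup E] [InnerProductSpace ℂ E] [FiniteDimensional ℂ E]
    [CompleteSpace E] (U V : Submodule ℂ E) (h : finrank ℂ U ≤ finrank ℂ V) :
    ∃ w : E →L[ℂ] E, star w * w = U.starProjection ∧ V.starProjection * w = w := by
  let b := stdOrthonormalBasis ℂ U
  let c := stdOrthonormalBasis ℂ V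
  have hb : Total b := fun z hz => b.repr.injective (by
    ext i; rw [b.repr_apply_apply, hz]; simp)
  obtain ⟨L, hL⟩ := exists_isometry (y := fun i => c (Fin.castLE h i)) hb fun i j => by
    rw [orthonormal_iff_ite.1 b.orthonormal, orthonormal_iff_ite.1 c.orthonormal]
    simp [Fin.ext_iff]
  refine ⟨V.subtypeL ∘L L.toContinuousLinearMap ∘L U.orthogonalProjectionOnto, ?_, ?_⟩
  · ext x
    refine ext_inner_left ℂ fun y => ?_
    rw [mul_apply_eq_comp, ContinuousLinearMap.star_eq_adjoint,
      ContinuousLinearMap.adjoint_inner_right]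
    change ⟪L (U.orthogonalProjectionOnto y), L (U.orthogonalProjectionOnto x)⟫_ℂ = _
    rw [L.inner_map_map, Submodule.inner_orthogonalProjectionOnto_eq_of_mem_right,
      Submodule.starProjection_apply]
  · ext x
    exact Submodule.starProjection_eq_self_iff.2 (L (U.orthogonalProjectionOnto x)).2

lemma cmp_mat {n : Type*} [Fintype n] [DecidableEq n] {M N : Matrix n n ℂ}
    (hM : IsStarProjection M) (hN : IsStarProjection N) (h : M.trace.re ≤ N.trace.re) :
    ∃ W : Matrix n n ℂ, star W * W = M ∧ N * W = W := by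
  let φ := Matrix.toEuclideanCLM (n := n) (𝕜 := ℂ)
  have key : ∀ P : Matrix n n ℂ, IsStarProjection P → ∃ U : Submodule ℂ (EuclideanSpace ℂ n),
      φ P = U.starProjection ∧ P.trace = finrank ℂ U := fun P hP => by
    have h1 : IsStarProjection (φ P) := hP.map φ
    obtain ⟨_, h2⟩ := isStarProjection_iff_eq_starProjection_range.1 h1
    refine ⟨_, h2, ?_⟩
    have h3 : IsIdempotentElem (φ P).toLinearMap := ContinuousLinearMap.IsIdempotentElem.toLinearMap h1.isIdempotentElem
    rw [← (LinearMap.IsIdempotentElem.isProj_range _ h3).trace, Matrix.coe_toEuclideanCLM_eq_toEuclideanLin,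
      Matrix.toEuclideanLin_eq_toLin, Matrix.trace_toLin_eq]
  obtain ⟨U, hU, hU'⟩ := key M hM
  obtain ⟨V, hV, hV'⟩ := key N hN
  rw [hU', hV'] at h
  obtain ⟨w, h1, h2⟩ := cmp_clm U V (by simpa using h)
  refine ⟨φ.symm w, EquivLike.injective φ ?_, EquivLike.injective φ ?_⟩
  · rw [map_mul, map_star, φ.apply_symm_apply, h1, hU]
  · rw [map_mul, φ.apply_symm_apply, hV, h2]

end Crest.Agent.NAI
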