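import Crest.Agent.NAI.St
import Crest.Agent.NAI.Mat

/-! An abstract CAR system: matrix units, traces, comparison, spectral cuts. -/

set_option autoImplicit false
open Filter Topology
open scoped InnerProductSpace ComplexOrder

namespace Crest.Agent.NAI

section proj
variable {A : Type*} [CStarAlgebra A]

lemma proj_comm {p q : A} (hp : IsStarProjection p) (hq : IsStarProjection q)
    (h : p * q = q) : q * p = q := by
  simpa [hp.isSelfAdjoint.star_eq, hq.isSelfAdjoint.star_eq] using congrArg star h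

lemma pi_mul {w e : A} (he : IsStarProjection e) (h : star w * w = e) : w * e = w := by
  have : star (w * (1 - e)) * (w * (1 - e)) = 0 := by
    rw [star_mul, he.one_sub.isSelfAdjoint.star_eq, mul_assoc, ← mul_assoc (star w), h,
      he.mul_one_sub_self, mul_zero]
  rw [CStarRing.star_mul_self_eq_zero_iff, mul_sub, mul_one, sub_eq_zero] at this
  exact this.symm

lemma pi_proj {w e : A} (he : IsStarProjection e) (h : star w * w = e) :
    IsStarProjection (w * star w) :=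
  ⟨by rw [IsIdempotentElem, mul_assoc, ← mul_assoc (star w), h, ← mul_assoc, pi_mul he h],
    IsSelfAdjoint.mul_star_self w⟩

lemma norm_sq_le_add (x y : A) : ‖x‖ ^ 2 ≤ ‖star x * x + star y * y‖ := by
  let _ := CStarAlgebra.spectralOrder A
  have := CStarAlgebra.spectralOrderedRing A
  rw [sq, ← CStarRing.norm_star_mul_self]
  exact CStarAlgebra.norm_le_norm_of_nonneg_of_le (star_mul_self_nonneg x)
    (le_add_of_nonneg_right (star_mul_self_nonneg y))

lemma norm_cut_le {q : A} (hq : IsStarProjection q) (a : A) : ‖q * a * q‖ ≤ ‖a‖ := by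
  have := hq.norm_le
  calc ‖q * a * q‖ ≤ ‖q‖ * ‖a‖ * ‖q‖ := norm_mul₃_le
    _ ≤ 1 * ‖a‖ * 1 := by gcongr
    _ = ‖a‖ := by ring

end proj

/-- A dense tower of full matrix algebras. -/
structure Sys (A : Type) [CStarAlgebra A] where
  ρ : ∀ m : ℕ, Matrix (Fin (2 ^ m)) (Fin (2 ^ m)) ℂ →⋆ₐ[ℂ] A
  mono : ∀ m M, ∃ N, ρ (m + 1) N = ρ m M
  dense : Dense (⋃ m, Set.range (ρ m))
  anti : ∀ m, ρ m (Matrix.single 0 0 1) * ρ (m + 1) (Matrix.single 0 0 1) =
    ρ (m + 1) (Matrix.single 0 0 1)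

namespace Sys
variable {A : Type} [CStarAlgebra A] (S : Sys A)

lemma mono' {m n : ℕ} (h : m ≤ n) (M : Matrix (Fin (2 ^ m)) (Fin (2 ^ m)) ℂ) :
    ∃ N, S.ρ n N = S.ρ m M := by
  induction n, h using Nat.le_induction with
  | base => exact ⟨M, rfl⟩
  | succ n _ ih =>
    obtain ⟨N, hN⟩ := ih
    obtain ⟨N', hN'⟩ := S.mono n N
    exact ⟨N', hN'.trans hN⟩

lemma lift2 {a b : A} (ha : ∃ m M, S.ρ m M = a) (hb : ∃ m M, S.ρ m M = b) :
    ∃ m M N, S.ρ m M = a ∧ S.ρ m N = b := by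
  obtain ⟨m, M, rfl⟩ := ha
  obtain ⟨n, N, rfl⟩ := hb
  obtain ⟨M', h1⟩ := S.mono' (le_max_left m n) M
  obtain ⟨N', h2⟩ := S.mono' (le_max_right m n) N
  exact ⟨_, M', N', h1, h2⟩

/-- The union of the matrix algebras. -/
def D : StarSubalgebra ℂ A where
  carrier := {a | ∃ m M, S.ρ m M = a}
  mul_mem' ha hb := by
    obtain ⟨m, M, N, rfl, rfl⟩ := S.lift2 ha hb
    exact ⟨m, M * N, map_mul _ _ _⟩
  add_mem' ha hb := by
    obtain ⟨m, M, N, rfl, rfl⟩ := S.lift2 ha hb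
    exact ⟨m, M + N, map_add _ _ _⟩
  algebraMap_mem' c := ⟨0, algebraMap _ _ c, AlgHomClass.commutes _ _⟩
  star_mem' := by
    rintro _ ⟨m, M, rfl⟩
    exact ⟨m, star M, map_star _ _⟩

lemma dense_D : Dense (S.D : Set A) := S.dense.mono fun a ha => by
  obtain ⟨m, M, h⟩ := Set.mem_iUnion.1 ha
  exact ⟨m, M, h⟩

/-- Matrix units. -/
noncomputable def e (m : ℕ) (i j : Fin (2 ^ m)) : A := S.ρ m (Matrix.single i j 1)

/-- The standard decreasing projections. -/
noncomputable def P (m : ℕ) : A := S.e m 0 0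

lemma e_mem (m : ℕ) (i j : Fin (2 ^ m)) : S.e m i j ∈ S.D := ⟨m, _, rfl⟩
lemma P_mem (m : ℕ) : S.P m ∈ S.D := ⟨m, _, rfl⟩

lemma e_mul (m : ℕ) (i j k l : Fin (2 ^ m)) :
    S.e m i j * S.e m k l = if j = k then S.e m i l else 0 := by
  unfold e
  rw [← map_mul]
  split_ifs with h
  · subst h; rw [Matrix.single_mul_single_same, mul_one]
  · rw [Matrix.single_mul_single_of_ne _ _ _ _ h, map_zero]

lemma star_e (m : ℕ) (i j : Fin (2 ^ m)) : star (S.e m i j) = S.e m j i := by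
  unfold e
  rw [← map_star, Matrix.star_eq_conjTranspose, Matrix.conjTranspose_single, star_one]

lemma sum_e (m : ℕ) : ∑ i, S.e m i i = 1 := by
  unfold e
  rw [← map_sum, Matrix.sum_single_one, map_one]

lemma ρ_eq (m : ℕ) (M : Matrix (Fin (2 ^ m)) (Fin (2 ^ m)) ℂ) :
    S.ρ m M = ∑ i, ∑ j, M i j • S.e m i j := by
  conv_lhs => rw [Matrix.matrix_eq_sum_single M]
  simp only [map_sum, e, ← map_smul, Matrix.smul_single, smul_eq_mul, mul_one]

lemma P_proj (m : ℕ) : IsStarProjection (S.P m) :=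
  ⟨by simp [IsIdempotentElem, P, e_mul], S.star_e m 0 0⟩

lemma P_anti {m n : ℕ} (h : m ≤ n) : S.P m * S.P n = S.P n := by
  induction n, h using Nat.le_induction with
  | base => exact (S.P_proj m).isIdempotentElem
  | succ n _ ih =>
    have : S.P n * S.P (n + 1) = S.P (n + 1) := S.anti n
    rw [← this, ← mul_assoc, ih]

lemma P_exc {a : A} (ha : a ∈ S.D) : ∃ (m : ℕ) (c : ℂ), S.P m * (a - c • 1) * S.P m = 0 := by
  obtain ⟨m, M, rfl⟩ := ha
  refine ⟨m, M 0 0, ?_⟩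
  rw [mul_sub, sub_mul, mul_smul_comm, mul_one, smul_mul_assoc, (S.P_proj m).isIdempotentElem.eq,
    sub_eq_zero]
  unfold P e
  rw [← map_mul, ← map_mul, Matrix.single_mul_mul_single, ← map_smul]
  simp

lemma exists_seq : ∃ g : ℕ → A, (∀ n, g n ∈ S.D) ∧ DenseRange g := by
  have h1 : TopologicalSpace.IsSeparable (S.D : Set A) := by
    refine (TopologicalSpace.IsSeparable.iUnion fun m => TopologicalSpace.IsSeparable.span (R := ℂ)
      (Set.finite_range fun x : Fin (2 ^ m) × Fin (2 ^ m) => S.e m x.1 x.2).isSeparable).mono ?_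
    rintro _ ⟨m, M, rfl⟩
    refine Set.mem_iUnion.2 ⟨m, ?_⟩
    rw [ρ_eq]
    exact Submodule.sum_mem _ fun i _ => Submodule.sum_mem _ fun j _ =>
      Submodule.smul_mem _ _ (Submodule.subset_span ⟨(i, j), rfl⟩)
  obtain ⟨t, h2, h3, h4⟩ := h1.exists_countable_dense_subset
  have h5 : Dense t := by
    rw [← dense_closure]; exact S.dense_D.mono h4
  obtain ⟨g, rfl⟩ := h3.exists_eq_range h5.nonempty
  exact ⟨g, fun n => h2 ⟨n, rfl⟩, h5⟩

lemma spec {l₁ l₂ : A} (h₁ : l₁ ∈ S.D) (h₂ : l₂ ∈ S.D) {δ : ℝ} (hδ : 0 < δ) :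
    ∃ r ∈ S.D, IsStarProjection r ∧
      (∀ q, Commute (star l₁ * l₁ + star l₂ * l₂) q → Commute r q) ∧
      ‖(star l₁ * l₁ + star l₂ * l₂) * r‖ ≤ δ ∧
      ∃ z, star z * z = star l₁ * l₁ + star l₂ * l₂ - (δ : ℂ) • (1 - r) := by
  let _ := CStarAlgebra.spectralOrder A
  have := CStarAlgebra.spectralOrderedRing A
  set b := star l₁ * l₁ + star l₂ * l₂ with hb
  have hb0 : 0 ≤ b := add_nonneg (star_mul_self_nonneg _) (star_mul_self_nonneg _)
  have hsa := hb0.isSelfAdjoint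
  obtain ⟨m, M, hM⟩ : b ∈ S.D := add_mem (mul_mem (star_mem h₁) h₁) (mul_mem (star_mem h₂) h₂)
  have hfin : (spectrum ℝ b).Finite := by
    rw [← hM, ← spectrum.preimage_algebraMap ℂ]
    exact (M.finite_spectrum.subset (AlgHom.spectrum_apply_subset (S.ρ m) M)).preimage
      (FaithfulSMul.algebraMap_injective ℝ ℂ).injOn
  have hc : ∀ f : ℝ → ℝ, ContinuousOn f (spectrum ℝ b) := fun f => hfin.continuousOn f
  let f : ℝ → ℝ := fun t => if t ≤ δ then 1 else 0
  have hcl : IsClosed ((S.ρ m).range : Set A) :=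
    (LinearMap.range (S.ρ m).toAlgHom.toLinearMap).closed_of_finiteDimensional
  obtain ⟨N, hN⟩ : cfc f b ∈ (S.ρ m).range := cfc_mem (𝕜' := ℂ) f ⟨M, hM⟩
  refine ⟨cfc f b, ⟨m, N, hN⟩, ⟨?_, cfc_predicate f b⟩, fun q hq => hq.cfc_real f, ?_, ?_⟩
  · rw [IsIdempotentElem, ← cfc_mul _ _ _ (hc _) (hc _)]
    exact cfc_congr fun t _ => by simp only [f]; split_ifs <;> simp
  · have : b * cfc f b = cfc (fun t => t * f t) b := by
      rw [cfc_mul _ _ _ (hc _) (hc _), cfc_id' ℝ b]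
    rw [this]
    refine norm_cfc_le hδ.le fun t ht => ?_
    have := spectrum_nonneg_of_nonneg hb0 ht
    simp only [f]; split_ifs with h
    · rwa [mul_one, Real.norm_of_nonneg this]
    · simpa using hδ.le
  · have : b - (δ : ℂ) • (1 - cfc f b) = cfc (fun t => t - δ * (1 - f t)) b := by
      rw [cfc_sub _ _ _ (hc _) (hc _), cfc_id' ℝ b, cfc_const_mul _ _ _ (hc _),
        cfc_sub _ _ _ (hc _) (hc _), cfc_const_one ℝ b, Complex.coe_smul]
    have h0 : 0 ≤ cfc (fun t => t - δ * (1 - f t)) b := cfc_nonneg fun t ht => by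
      have := spectrum_nonneg_of_nonneg hb0 ht
      simp only [f]; split_ifs with h
      · simpa using this
      · simpa using (not_le.1 h).le
    obtain ⟨z, hz⟩ := CStarAlgebra.nonneg_iff_eq_star_mul_self.1 h0
    exact ⟨z, by rw [this, hz]⟩

section trace
variable {τ : A →ₗ[ℂ] ℂ} (h1 : τ 1 = 1) (hτ : ∀ a b, τ (a * b) = τ (b * a))
include h1 hτ

lemma tr_ρ (m : ℕ) (M : Matrix (Fin (2 ^ m)) (Fin (2 ^ m)) ℂ) :
    τ (S.ρ m M) = M.trace / 2 ^ m := by
  have h2 : ∀ i j, τ (S.e m i j) = if i = j then τ (S.P m) else 0 := fun i j => by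
    have : S.e m i j = S.e m i 0 * S.e m 0 j := by simp [e_mul]
    rw [this, hτ, e_mul]
    by_cases h : i = j
    · simp [h, P]
    · simp [h, Ne.symm h]
  have h3 : τ (S.P m) = 1 / 2 ^ m := by
    have := congrArg τ (S.sum_e m)
    simp only [map_sum, h2, if_true, h1, Finset.sum_const, Finset.card_univ, Fintype.card_fin,
      nsmul_eq_mul, Nat.cast_pow, Nat.cast_ofNat] at this
    field_simp
    linear_combination this
  simp [ρ_eq, h2, h3, Matrix.trace, Finset.sum_div, div_eq_mul_inv, Finset.sum_mul]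

lemma tr_P (m : ℕ) : (τ (S.P m)).re = (1 / 2) ^ m := by
  have : τ (S.P m) = (((1 / 2 : ℝ) ^ m : ℝ) : ℂ) := by
    unfold P e
    rw [S.tr_ρ h1 hτ]; simp
  rw [this, Complex.ofReal_re]

lemma ρ_inj (m : ℕ) : Function.Injective (S.ρ m) := by
  rw [injective_iff_map_eq_zero]
  intro M hM
  have := S.tr_ρ h1 hτ m (star M * M)
  rw [map_mul, hM, mul_zero, map_zero, eq_comm, div_eq_zero_iff] at this
  exact Matrix.trace_conjTranspose_mul_self_eq_zero_iff.1 (this.resolve_right (by simp))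

lemma cmp {e f : A} (he : e ∈ S.D) (hf : f ∈ S.D) (he' : IsStarProjection e)
    (hf' : IsStarProjection f) (h : (τ e).re ≤ (τ f).re) :
    ∃ w ∈ S.D, star w * w = e ∧ f * w = w := by
  obtain ⟨m, M, N, rfl, rfl⟩ := S.lift2 he hf
  have hi := S.ρ_inj h1 hτ m
  have key : ∀ M, IsStarProjection (S.ρ m M) → IsStarProjection M := fun M hM =>
    ⟨hi (by rw [map_mul]; exact hM.isIdempotentElem), hi (by rw [map_star]; exact hM.isSelfAdjoint)⟩
  rw [S.tr_ρ h1 hτ, S.tr_ρ h1 hτ] at h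
  have h2 : ∀ z : ℂ, (z / 2 ^ m).re = z.re / 2 ^ m := fun z => by
    rw [show (2 : ℂ) ^ m = ((2 ^ m : ℝ) : ℂ) by simp, Complex.div_ofReal_re]
  rw [h2, h2, div_le_div_iff_of_pos_right (by positivity)] at h
  obtain ⟨W, h3, h4⟩ := cmp_mat (key M he') (key N hf') h
  exact ⟨S.ρ m W, ⟨m, W, rfl⟩, by rw [← map_star, ← map_mul, h3], by rw [← map_mul, h4]⟩

lemma tr_pos {e : A} (he : e ∈ S.D) (he' : IsStarProjection e) (h0 : e ≠ 0) : 0 < (τ e).re := by
  by_contra h
  obtain ⟨w, -, h2, h3⟩ := S.cmp h1 hτ he (zero_mem _) he' (.zero A) (by simpa using h)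
  rw [zero_mul] at h3
  exact h0 (by rw [← h2, ← h3, mul_zero])

lemma sub_proj {e f : A} (he : e ∈ S.D) (hf : f ∈ S.D) (he' : IsStarProjection e)
    (hf' : IsStarProjection f) (h : (τ e).re ≤ (τ f).re) :
    ∃ g ∈ S.D, IsStarProjection g ∧ f * g = g ∧ τ g = τ e := by
  obtain ⟨w, hw, h2, h3⟩ := S.cmp h1 hτ he hf he' hf' h
  exact ⟨w * star w, mul_mem hw (star_mem hw), pi_proj he' h2, by rw [← mul_assoc, h3],
    by rw [hτ, h2]⟩

lemma eqv {e f : A} (he : e ∈ S.D) (hf : f ∈ S.D) (he' : IsStarProjection e)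
    (hf' : IsStarProjection f) (h : τ e = τ f) : ∃ w, star w * w = e ∧ w * star w = f := by
  obtain ⟨w, hw, h2, h3⟩ := S.cmp h1 hτ he hf he' hf' (by rw [h])
  refine ⟨w, h2, ?_⟩
  by_contra hne
  have := S.tr_pos h1 hτ (sub_mem hf (mul_mem hw (star_mem hw)))
    ((pi_proj he' h2).sub_of_mul_eq_right hf' (by rw [← mul_assoc, h3]))
    (sub_ne_zero.2 (Ne.symm hne))
  rw [map_sub, hτ, h2, h] at this
  simp at this

end trace

end Sys

end Crest.Agent.NAI
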